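import Claimed.Agent.R252.Slope.RedAlg

/-!
# ROW 252, unit T2-SLOPE, reduction 0(a)-(c) of `origin/helper17:notes/R252/slope_helper17.md` + CONSUMER FORM (helper6).

`slr_exit_of_nf`:  THEOREM NF  ⟹  `|Σ| ≤ 8 C 2^n K^(n+1) a |det D_phys| q^-3 (1 + log (1 + 3R/a))`      (02 (a01:eligible-slope-volume) with the allowed log loss).
Steps:  (b) `Q' = Q ± (c_min/2) w²`, `c_min = min (K a / R'², 1/(4 K R'))`, `R' = 3R`: `Σ(Q,K) ⊆ Σ(Q',2K)` and `|cww'| ≥ c_min/2`;
(a)+(c) the affine map `Φ s = (q Di (s_y - y1), q (ctw + cyw·s_y + 2 cww' s_w))` maps `Σ(Q',2K)` into `slrNFset Δ~ (2K) ε`, `ε = 4 |cww'| (2K) a`, `Δ~(τ,y~) = Δ(t0 + qτ, y_c + D y~)`, `Δ = l² - 4 cww' f`;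
`|det Φ| = 2 q³ |cww'| / |det D|`;   `(Fin 3 → ℝ) ≃ (ℝ × ℝ) × ℝ` preserves the volume.
-/

set_option autoImplicit false

namespace Claimed.Agent.R252

open MeasureTheory
open scoped ENNReal

/-- `SlrQ.dw` is the finite difference `kbDw` of `Base/Pb.lean` -/
theorem slr_dw_eq (Q : SlrQ) (t : ℝ) (y : Fin 2 → ℝ) (w : ℝ) : Q.dw t y w = (Q.ev t y (w + 1) - Q.ev t y (w - 1)) / 2 := by
  simp only [SlrQ.dw, SlrQ.ev]
  ring

/-- step (b): a small multiple of `w²` may be added -/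
theorem slr_perturb (Q : SlrQ) (Di : Matrix (Fin 2) (Fin 2) ℝ) (y0 y1 : Fin 2 → ℝ) (t0 q K a R δ : ℝ) (hq : 0 < q) (hq1 : q ≤ 1)
    (ht0 : |t0| ≤ 1) (hK : 1 ≤ K) (hR : 1 ≤ R) (h1 : |δ| * (3 * R) ^ 2 ≤ K * a) (h2 : 2 * |δ| * (3 * R) ≤ 1 / (2 * K)) :
    slrSig Q Di y0 y1 t0 q K a R ⊆ slrSig0 { Q with cww := Q.cww + δ } Di y0 y1 t0 q (2 * K) a := by
  rintro s ⟨hsR, b, hbR, hb, t1, ht1, hlow⟩
  have hK0 : 0 < K := by linarith
  have hw : ∀ t ∈ Set.Icc t0 (t0 + q), |slrW b s t| ≤ 3 * R := by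
    intro t ht
    have htt : |t| ≤ 2 := by
      rw [abs_le] at ht0 ⊢
      exact ⟨by linarith [ht.1, ht0.1], by linarith [ht.2, ht0.2]⟩
    calc |slrW b s t| ≤ |b 2| + |t * s 2| := abs_add_le _ _
      _ = |b 2| + |t| * |s 2| := by rw [abs_mul]
      _ ≤ R + 2 * R := by
          have := mul_le_mul htt (hsR 2) (abs_nonneg _) (by norm_num)
          linarith [hbR 2]
      _ = 3 * R := by ring
  have hev : ∀ t y w, SlrQ.ev { Q with cww := Q.cww + δ } t y w = Q.ev t y w + δ * w ^ 2 := by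
    intro t y w
    simp only [SlrQ.ev]
    ring
  have hdw : ∀ t y w, SlrQ.dw { Q with cww := Q.cww + δ } t y w = Q.dw t y w + 2 * δ * w := by
    intro t y w
    simp only [SlrQ.dw]
    ring
  have hsm : ∀ t ∈ Set.Icc t0 (t0 + q), |2 * δ * slrW b s t| ≤ 1 / (2 * K) := by
    intro t ht
    rw [abs_mul, abs_mul]
    have : |(2 : ℝ)| = 2 := abs_of_pos (by norm_num)
    rw [this]
    exact (mul_le_mul_of_nonneg_left (hw t ht) (by positivity)).trans h2
  have hKK : 1 / (2 * K) ≤ K := by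
    rw [div_le_iff₀ (by positivity)]
    nlinarith
  refine ⟨b, fun t ht => ?_, t1, ht1, ?_⟩
  · obtain ⟨g1, g2, g3⟩ := hb t ht
    refine ⟨fun i => (g1 i).trans (by linarith), ?_, ?_⟩
    · rw [hev]
      have e1 : |δ * slrW b s t ^ 2| ≤ K * a := by
        rw [abs_mul, abs_pow]
        refine (mul_le_mul_of_nonneg_left ?_ (abs_nonneg _)).trans h1
        exact pow_le_pow_left₀ (abs_nonneg _) (hw t ht) 2
      calc |Q.ev t (slrY b s t) (slrW b s t) + δ * slrW b s t ^ 2| ≤ |Q.ev t (slrY b s t) (slrW b s t)| + |δ * slrW b s t ^ 2| := abs_add_le _ _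
        _ ≤ 2 * K * a := by linarith
    · rw [hdw]
      calc |Q.dw t (slrY b s t) (slrW b s t) + 2 * δ * slrW b s t| ≤ |Q.dw t (slrY b s t) (slrW b s t)| + |2 * δ * slrW b s t| := abs_add_le _ _
        _ ≤ 2 * K := by linarith [hsm t ht]
  · rw [hdw]
    have e2 : |Q.dw t1 (slrY b s t1) (slrW b s t1)| - |2 * δ * slrW b s t1| ≤ |Q.dw t1 (slrY b s t1) (slrW b s t1) + 2 * δ * slrW b s t1| := by
      have := abs_sub_abs_le_abs_sub (Q.dw t1 (slrY b s t1) (slrW b s t1)) (-(2 * δ * slrW b s t1))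
      rwa [abs_neg, sub_neg_eq_add] at this
    have e3 : 1 / K - 1 / (2 * K) = 1 / (2 * K) := by
      field_simp
      ring
    linarith [hsm t1 ht1]

/-- the logarithmic factor -/
theorem slr_log_le (K a R c : ℝ) (hK : 1 ≤ K) (ha : 0 < a) (hR : 1 ≤ R) (hc : min (K * a / (3 * R) ^ 2) (1 / (4 * K * (3 * R))) / 2 ≤ c) :
    1 + Real.log (1 + 1 / (4 * c * (2 * K * a))) ≤ 2 * (1 + Real.log (1 + 3 * R / a)) := by
  have hK0 : 0 < K := by linarith
  have hR0 : 0 < R := by linarith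
  set x := 3 * R / a with hx
  have hx0 : 0 < x := by positivity
  have hmin : 0 < min (K * a / (3 * R) ^ 2) (1 / (4 * K * (3 * R))) := lt_min (by positivity) (by positivity)
  have hc0 : 0 < c := by linarith
  set ε := 4 * c * (2 * K * a) with hε
  have hε0 : 0 < ε := by positivity
  have key : 1 / ε ≤ x ^ 2 + 2 * x := by
    rw [div_le_iff₀ hε0]
    rcases min_choice (K * a / (3 * R) ^ 2) (1 / (4 * K * (3 * R))) with h | h
    · rw [h] at hc
      have e1 : 4 * K ^ 2 / x ^ 2 ≤ ε := by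
        have : 4 * K ^ 2 / x ^ 2 = 4 * (K * a / (3 * R) ^ 2 / 2) * (2 * K * a) := by
          rw [hx]
          field_simp
        rw [this, hε]
        exact mul_le_mul_of_nonneg_right (by linarith) (by positivity)
      have e2 : 4 * K ^ 2 ≤ ε * x ^ 2 := by
        rwa [div_le_iff₀ (by positivity)] at e1
      nlinarith [mul_pos hε0 hx0]
    · rw [h] at hc
      have e1 : 1 / x ≤ ε := by
        have : 1 / x = 4 * (1 / (4 * K * (3 * R)) / 2) * (2 * K * a) := by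
          rw [hx]
          field_simp
        rw [this, hε]
        exact mul_le_mul_of_nonneg_right (by linarith) (by positivity)
      have e2 : 1 ≤ ε * x := by
        rwa [div_le_iff₀ hx0] at e1
      nlinarith [mul_pos hε0 (pow_pos hx0 2)]
  have h1 : Real.log (1 + 1 / ε) ≤ Real.log ((1 + x) ^ 2) := by
    apply Real.log_le_log (by positivity)
    nlinarith
  rw [Real.log_pow] at h1
  have h2 : 0 ≤ Real.log (1 + x) := Real.log_nonneg (by linarith)
  push_cast at h1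
  linarith

/-- **EXIT of the unit T2-SLOPE** (consumer: S2b, `k2b_mass_le_slope` + `k2b_horizon_arith`). -/
theorem slr_exit_of_nf (C : ℝ) (n : ℕ) (hC : 0 ≤ C) (hNF : SlrNF C n) (Q : SlrQ) (Dm Di : Matrix (Fin 2) (Fin 2) ℝ) (hD : Dm * Di = 1)
    (y0 y1 : Fin 2 → ℝ) (t0 q K a R : ℝ) (hq : 0 < q) (hq1 : q ≤ 1) (ht0 : |t0| ≤ 1) (hK : 1 ≤ K) (ha : 0 < a) (hR : 1 ≤ R) :
    volume (slrSig Q Di y0 y1 t0 q K a R)
      ≤ ENNReal.ofReal (8 * C * 2 ^ n * K ^ (n + 1) * a * |Dm.det| / q ^ 3 * (1 + Real.log (1 + 3 * R / a))) := by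
  have hK0 : 0 < K := by linarith
  have hR0 : 0 < R := by linarith
  set cm := min (K * a / (3 * R) ^ 2) (1 / (4 * K * (3 * R))) with hcm
  have hcm0 : 0 < cm := lt_min (by positivity) (by positivity)
  -- the perturbation
  obtain ⟨δ, hδ, hcw⟩ : ∃ δ : ℝ, |δ| = cm / 2 ∧ cm / 2 ≤ |Q.cww + δ| := by
    rcases le_total 0 Q.cww with h | h
    · refine ⟨cm / 2, abs_of_pos (by linarith), ?_⟩
      rw [abs_of_nonneg (by linarith)]
      linarith
    · refine ⟨-(cm / 2), by rw [abs_neg, abs_of_pos (by linarith)], ?_⟩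
      rw [abs_of_nonpos (by linarith)]
      linarith
  have h1 : |δ| * (3 * R) ^ 2 ≤ K * a := by
    rw [hδ]
    have : cm ≤ K * a / (3 * R) ^ 2 := min_le_left _ _
    rw [le_div_iff₀ (by positivity)] at this
    have h0 : 0 ≤ K * a := by positivity
    nlinarith
  have h2 : 2 * |δ| * (3 * R) ≤ 1 / (2 * K) := by
    rw [hδ]
    have : cm ≤ 1 / (4 * K * (3 * R)) := min_le_right _ _
    rw [le_div_iff₀ (by positivity)] at this
    rw [le_div_iff₀ (by positivity)]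
    nlinarith
  set Q' : SlrQ := { Q with cww := Q.cww + δ } with hQ'
  set c := |Q.cww + δ| with hc
  have hc0 : 0 < c := by linarith
  have hcne : Q.cww + δ ≠ 0 := by
    intro h
    rw [hc, h, abs_zero] at hc0
    exact lt_irrefl _ hc0
  -- determinants
  have hdd : Dm.det * Di.det = 1 := by rw [← Matrix.det_mul, hD, Matrix.det_one]
  have hDm : Dm.det ≠ 0 := left_ne_zero_of_mul_eq_one hdd
  have hDi : Di.det = Dm.det⁻¹ := eq_inv_of_mul_eq_one_right hdd
  have hdetM : (slrM Q' Di q).det = q ^ 3 * (2 * (Q.cww + δ)) * Dm.det⁻¹ := by rw [slr_detM, hDi]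
  have hdetne : (slrM Q' Di q).det ≠ 0 := by
    rw [hdetM]
    positivity
  have habs : |(slrM Q' Di q).det⁻¹| = |Dm.det| / (q ^ 3 * (2 * c)) := by
    rw [hdetM, abs_inv, abs_mul, abs_mul, abs_mul, abs_inv, abs_of_pos (pow_pos hq 3), abs_of_pos (by norm_num : (0 : ℝ) < 2), ← hc]
    field_simp
  set ε := 4 * c * (2 * K * a) with hε
  have hε0 : 0 < ε := by positivity
  set S := slrNFset (slrDelN Q' Dm y0 y1 t0 q) (2 * K) ε with hS
  have hsub : slrSig Q Di y0 y1 t0 q K a R ⊆ {s : Fin 3 → ℝ | (slrM Q' Di q).mulVec s + slrV Q' Di y1 q ∈ {x : Fin 3 → ℝ | ((x 0, x 1), x 2) ∈ S}} := by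
    intro s hs
    exact slr_mem_nf Q' Dm Di hD y0 y1 t0 q (2 * K) a hq s (slr_perturb Q Di y0 y1 t0 q K a R δ hq hq1 ht0 hK hR h1 h2 hs)
  have hL := slr_log_le K a R c hK ha hR hcw
  have hL0 : 0 ≤ Real.log (1 + 1 / ε) := Real.log_nonneg (by
    have : 0 < 1 / ε := by positivity
    linarith)
  calc volume (slrSig Q Di y0 y1 t0 q K a R)
      ≤ volume {s : Fin 3 → ℝ | (slrM Q' Di q).mulVec s + slrV Q' Di y1 q ∈ {x : Fin 3 → ℝ | ((x 0, x 1), x 2) ∈ S}} := measure_mono hsub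
    _ = ENNReal.ofReal |(slrM Q' Di q).det⁻¹| * volume {x : Fin 3 → ℝ | ((x 0, x 1), x 2) ∈ S} := slr_aff_vol _ hdetne _ _
    _ ≤ ENNReal.ofReal |(slrM Q' Di q).det⁻¹| * ENNReal.ofReal (C * (2 * K) ^ n * ε * (1 + Real.log (1 + 1 / ε))) :=
        mul_le_mul_right ((slr_fin3 S).trans (hNF _ (slr_delN_isQ Q' Dm y0 y1 t0 q) (2 * K) ε (by linarith) hε0)) _
    _ = ENNReal.ofReal (|(slrM Q' Di q).det⁻¹| * (C * (2 * K) ^ n * ε * (1 + Real.log (1 + 1 / ε)))) :=
        (ENNReal.ofReal_mul (abs_nonneg _)).symm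
    _ ≤ ENNReal.ofReal (8 * C * 2 ^ n * K ^ (n + 1) * a * |Dm.det| / q ^ 3 * (1 + Real.log (1 + 3 * R / a))) := by
        apply ENNReal.ofReal_le_ofReal
        rw [habs]
        have e : |Dm.det| / (q ^ 3 * (2 * c)) * (C * (2 * K) ^ n * ε * (1 + Real.log (1 + 1 / ε)))
            = 4 * C * 2 ^ n * K ^ (n + 1) * a * |Dm.det| / q ^ 3 * (1 + Real.log (1 + 1 / ε)) := by
          rw [hε, mul_pow, pow_succ]
          field_simp
          ring
        rw [e]
        have e' : 8 * C * 2 ^ n * K ^ (n + 1) * a * |Dm.det| / q ^ 3 * (1 + Real.log (1 + 3 * R / a))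
            = 4 * C * 2 ^ n * K ^ (n + 1) * a * |Dm.det| / q ^ 3 * (2 * (1 + Real.log (1 + 3 * R / a))) := by ring
        rw [e']
        exact mul_le_mul_of_nonneg_left hL (by positivity)

end Claimed.Agent.R252
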