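import Claimed.Agent.R252.Slope.NFExit
import Claimed.Agent.R252.Slope.RedExit

/-!
# ROW 252, BOX 7 (T2, slope volume): THE EXIT OF THE UNIT  (helper6; no sorry in this file: everything hangs on `slv_nf`, helper17's `NFContract.lean`)

`slr_exit`:  `|Σ| ≤ 8 (2·10^6) 2^7 K^8 a |det D_phys| / q^3 (1 + log (1 + 3R/a))`  for the set `Σ = slrSig Q Di y0 y1 t0 q K a R` of 02-framework.tex l.1491-1506 (see `RedDefs.lean`).
-/

set_option autoImplicit false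

namespace Claimed.Agent.R252

open MeasureTheory
open scoped ENNReal

/-- **BOX 7**: the slope-volume bound (02 (a01:eligible-slope-volume)), with a logarithmic loss. -/
theorem slr_exit (Q : SlrQ) (Dm Di : Matrix (Fin 2) (Fin 2) ℝ) (hD : Dm * Di = 1)
    (y0 y1 : Fin 2 → ℝ) (t0 q K a R : ℝ) (hq : 0 < q) (hq1 : q ≤ 1) (ht0 : |t0| ≤ 1) (hK : 1 ≤ K) (ha : 0 < a) (hR : 1 ≤ R) :
    volume (slrSig Q Di y0 y1 t0 q K a R)
      ≤ ENNReal.ofReal (8 * (2 * 10 ^ 6) * 2 ^ 7 * K ^ 8 * a * |Dm.det| / q ^ 3 * (1 + Real.log (1 + 3 * R / a))) :=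
  slr_exit_of_nf (2 * 10 ^ 6) 7 (by positivity) slv_slrNF Q Dm Di hD y0 y1 t0 q K a R hq hq1 ht0 hK ha hR

end Claimed.Agent.R252
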