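-- KEEP
import Claimed.Agent.R252.Slope.Defs
import Claimed.Agent.R252.Remez.Misc
import Claimed.Agent.R252.Slv.Kit

/-!
# ROW 252, BOX 7 (T2, slope volume), file 2: THE KIT.   CONTRACT      (architect helper17; prefix `slv_`)

PAPER-FREE, Mathlib only.   Every `sorry` is a leaf `L-252-SLO-K*`.   STATEMENTS ARE FROZEN (defects: one line to helper17).   Prove IN PLACE: pull, splice only your theorem and helper lemmas (prefix `slv_`) directly above it.
Already available:  `rmz_quad_coeff`, `rmz_quad_sublevel` (Remez/Misc, proved),  `slv_quad_coarea` (Slv/Kit, Lemma M: `∫ 1[|q| ≤ δ] |q'| ≤ 4 δ`).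
-/

set_option autoImplicit false

namespace Claimed.Agent.R252

open MeasureTheory
open scoped ENNReal

/-! ## 1. One variable -/

/-- **Lemma T.** -/
theorem slv_T (c m δ : ℝ) (hm : 0 < m) (hδ : 0 ≤ δ) :
    volume {x : ℝ | m ≤ |x| ∧ |x ^ 2 - c| ≤ δ} ≤ ENNReal.ofReal (2 * δ / m) := by
  have h := rmz_quad_sublevel 1 0 (-c) δ (2 * m) hδ (by positivity)
  have e : 4 * δ / (2 * m) = 2 * δ / m := by
    field_simp
    ring
  rw [e] at h
  refine (measure_mono ?_).trans h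
  intro x hx
  refine ⟨?_, ?_⟩
  · have : 1 * x ^ 2 + 0 * x + -c = x ^ 2 - c := by ring
    rw [this]
    exact hx.2
  · have : 2 * 1 * x + 0 = 2 * x := by ring
    rw [this, abs_mul, abs_two]
    linarith [hx.1]

/-- **LEAF L-252-SLO-K1: thickening of an interval.**   No measurability of `V`.
PLAN.  The set is contained in `(J ∩ V) ∪ Icc (sInf J - r) (sInf J) ∪ Icc (sSup J) (sSup J + r)`:  let `x ∉ J`, `y ∈ J`, `|x - y| ≤ r`.  If `x < y` then `x` is a lower bound of `J` (a `z ∈ J`, `z ≤ x` would give `x ∈ Icc z y ⊆ J`),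
so `J` is bounded below and `x ≤ sInf J ≤ y ≤ x + r`.   Symmetrically for `y < x`.   `measure_union_le`, `Real.volume_Icc`. -/
theorem slv_thick (J V : Set ℝ) (hJ : J.OrdConnected) (r : ℝ) (hr : 0 ≤ r) :
    volume {x : ℝ | x ∈ V ∧ ∃ y ∈ J, |x - y| ≤ r} ≤ volume (J ∩ V) + ENNReal.ofReal (2 * r) := by
  have hsub : {x : ℝ | x ∈ V ∧ ∃ y ∈ J, |x - y| ≤ r} ⊆
      (J ∩ V) ∪ (Set.Icc (sInf J - r) (sInf J) ∪ Set.Icc (sSup J) (sSup J + r)) := by
    rintro x ⟨hxV, y, hy, hxy⟩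
    by_cases hxJ : x ∈ J
    · exact Or.inl ⟨hxJ, hxV⟩
    · right
      rw [abs_le] at hxy
      rcases lt_trichotomy x y with h | h | h
      · left
        have hlb : ∀ z ∈ J, x ≤ z := by
          intro z hz
          by_contra hcon
          push Not at hcon
          exact hxJ (hJ.out hz hy ⟨hcon.le, h.le⟩)
        have h1 : x ≤ sInf J := le_csInf ⟨y, hy⟩ hlb
        have h2 : sInf J ≤ y := csInf_le ⟨x, hlb⟩ hy
        exact ⟨by linarith [hxy.1], h1⟩
      · exact absurd (h ▸ hy) hxJ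
      · right
        have hub : ∀ z ∈ J, z ≤ x := by
          intro z hz
          by_contra hcon
          push Not at hcon
          exact hxJ (hJ.out hy hz ⟨h.le, hcon.le⟩)
        have h1 : sSup J ≤ x := csSup_le ⟨y, hy⟩ hub
        have h2 : y ≤ sSup J := le_csSup ⟨x, hub⟩ hy
        exact ⟨h1, by linarith [hxy.2]⟩
  refine (measure_mono hsub).trans ((measure_union_le _ _).trans (add_le_add_right ?_ _))
  refine (measure_union_le _ _).trans ?_
  rw [Real.volume_Icc, Real.volume_Icc, ← ENNReal.ofReal_add (by linarith) (by linarith)]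
  apply le_of_eq
  congr 1
  ring

/-- **LEAF L-252-SLO-K2: the 1-D area inequality** (no injectivity).
PLAN.  `MeasureTheory.addHaar_image_le_lintegral_abs_det_fderiv volume hA` with `f' x := ContinuousLinearMap.smulRight (1 : ℝ →L[ℝ] ℝ) (f' x)` (`HasDerivAt.hasFDerivAt`, `.hasFDerivWithinAt`), `ContinuousLinearMap.det_one_smulRight`. -/
theorem slv_image_le (f f' : ℝ → ℝ) (A : Set ℝ) (hA : MeasurableSet A) (hf : ∀ x ∈ A, HasDerivAt f (f' x) x) :
    volume (f '' A) ≤ ∫⁻ x in A, ENNReal.ofReal |f' x| := by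
  have h := MeasureTheory.addHaar_image_le_lintegral_abs_det_fderiv volume hA
    (f := f) (f' := fun x => ContinuousLinearMap.smulRight (1 : ℝ →L[ℝ] ℝ) (f' x))
    (fun x hx => (hf x hx).hasFDerivAt.hasFDerivWithinAt)
  simpa only [ContinuousLinearMap.det_smulRight, one_apply_eq_self, one_mul] using h

/-- **LEAF L-252-SLO-K3: a superlevel set of a quadratic is order connected on each side of the vertex.**
PLAN.  `v := -c1/(2 c2)` (`v := 0` if `c2 = 0`).   For `x ≤ z ≤ y ≤ v`:  `q z - q x = (z - x)(c1 + c2 (z + x))` and `q z - q y = (z - y)(c1 + c2 (z + y))`; on `(-∞, v]` the factors `c1 + c2 (·+·)` have the sign of `-c2` (of `c1` if `c2 = 0`),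
so `q z ≥ min (q x) (q y)`.   `Set.ordConnected_def` / `Set.OrdConnected.mk`. -/
theorem slv_split (c0 c1 c2 : ℝ) : ∃ v : ℝ, ∀ lo K : ℝ,
    ({b : ℝ | b ≤ v ∧ |b| ≤ K ∧ lo ≤ c0 + c1 * b + c2 * b ^ 2} : Set ℝ).OrdConnected ∧
    ({b : ℝ | v ≤ b ∧ |b| ≤ K ∧ lo ≤ c0 + c1 * b + c2 * b ^ 2} : Set ℝ).OrdConnected := by
  -- a vertex: `c1 + 2 c2 v = 0`, or `c2 = 0`
  obtain ⟨v, hv⟩ : ∃ v : ℝ, c1 + 2 * c2 * v = 0 ∨ c2 = 0 := by
    by_cases h : c2 = 0
    · exact ⟨0, Or.inr h⟩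
    · refine ⟨-c1 / (2 * c2), Or.inl ?_⟩
      field_simp
      ring
  -- on each side, `q z ≥ min (q x) (q y)` for `x ≤ z ≤ y`
  have hL : ∀ x y z : ℝ, x ≤ z → z ≤ y → y ≤ v → ∀ lo : ℝ, lo ≤ c0 + c1 * x + c2 * x ^ 2 → lo ≤ c0 + c1 * y + c2 * y ^ 2 →
      lo ≤ c0 + c1 * z + c2 * z ^ 2 := by
    intro x y z hxz hzy hyv lo hx hy
    rcases hv with hv | hv
    · rcases le_total 0 c2 with h | h
      · -- decreasing on the left: q z ≥ q y
        have : 0 ≤ (y - z) * (c2 * ((v - y) + (v - z))) :=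
          mul_nonneg (by linarith) (mul_nonneg h (by linarith))
        nlinarith
      · have : 0 ≤ (z - x) * (-c2 * ((v - x) + (v - z))) :=
          mul_nonneg (by linarith) (mul_nonneg (by linarith) (by linarith))
        nlinarith
    · subst hv
      rcases le_total 0 c1 with h | h
      · nlinarith [mul_nonneg h (sub_nonneg.mpr hxz)]
      · nlinarith [mul_nonneg (neg_nonneg.mpr h) (sub_nonneg.mpr hzy)]
  have hR : ∀ x y z : ℝ, x ≤ z → z ≤ y → v ≤ x → ∀ lo : ℝ, lo ≤ c0 + c1 * x + c2 * x ^ 2 → lo ≤ c0 + c1 * y + c2 * y ^ 2 →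
      lo ≤ c0 + c1 * z + c2 * z ^ 2 := by
    intro x y z hxz hzy hvx lo hx hy
    rcases hv with hv | hv
    · rcases le_total 0 c2 with h | h
      · have : 0 ≤ (z - x) * (c2 * ((x - v) + (z - v))) :=
          mul_nonneg (by linarith) (mul_nonneg h (by linarith))
        nlinarith
      · have : 0 ≤ (y - z) * (-c2 * ((y - v) + (z - v))) :=
          mul_nonneg (by linarith) (mul_nonneg (by linarith) (by linarith))
        nlinarith
    · subst hv
      rcases le_total 0 c1 with h | h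
      · nlinarith [mul_nonneg h (sub_nonneg.mpr hxz)]
      · nlinarith [mul_nonneg (neg_nonneg.mpr h) (sub_nonneg.mpr hzy)]
  refine ⟨v, fun lo K => ⟨⟨?_⟩, ⟨?_⟩⟩⟩
  · rintro x ⟨hx1, hx2, hx3⟩ y ⟨hy1, hy2, hy3⟩ z ⟨hz1, hz2⟩
    refine ⟨hz2.trans hy1, ?_, hL x y z hz1 hz2 hy1 lo hx3 hy3⟩
    rw [abs_le] at hx2 hy2 ⊢
    exact ⟨by linarith, by linarith⟩
  · rintro x ⟨hx1, hx2, hx3⟩ y ⟨hy1, hy2, hy3⟩ z ⟨hz1, hz2⟩
    refine ⟨hx1.trans hz1, ?_, hR x y z hz1 hz2 hx1 lo hx3 hy3⟩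
    rw [abs_le] at hx2 hy2 ⊢
    exact ⟨by linarith, by linarith⟩

/-! ## 2. The square -/

/-- the boundary of the square is preconnected -/
theorem slv_bdry_preconn (K : ℝ) (hK : 0 ≤ K) :
    IsPreconnected {p : ℝ × ℝ | |p.1| ≤ K ∧ |p.2| ≤ K ∧ (|p.1| = K ∨ |p.2| = K)} := by
  have hI : IsPreconnected (Set.Icc (-K) K) := isPreconnected_Icc
  have hmK : (-K) ∈ Set.Icc (-K) K := ⟨le_refl _, by linarith⟩
  have hpK : K ∈ Set.Icc (-K) K := ⟨by linarith, le_refl _⟩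
  have hR : IsPreconnected (({K} : Set ℝ) ×ˢ Set.Icc (-K) K) := isPreconnected_singleton.prod hI
  have hL : IsPreconnected (({-K} : Set ℝ) ×ˢ Set.Icc (-K) K) := isPreconnected_singleton.prod hI
  have hT : IsPreconnected (Set.Icc (-K) K ×ˢ ({K} : Set ℝ)) := hI.prod isPreconnected_singleton
  have hB : IsPreconnected (Set.Icc (-K) K ×ˢ ({-K} : Set ℝ)) := hI.prod isPreconnected_singleton
  have h1 := IsPreconnected.union (K, K) (⟨rfl, hpK⟩ : (K, K) ∈ ({K} : Set ℝ) ×ˢ Set.Icc (-K) K)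
    (⟨hpK, rfl⟩ : (K, K) ∈ Set.Icc (-K) K ×ˢ ({K} : Set ℝ)) hR hT
  have h2 := IsPreconnected.union (-K, K) (Or.inr ⟨hmK, rfl⟩ : (-K, K) ∈ _ ∪ Set.Icc (-K) K ×ˢ ({K} : Set ℝ))
    (⟨rfl, hpK⟩ : (-K, K) ∈ ({-K} : Set ℝ) ×ˢ Set.Icc (-K) K) h1 hL
  have h3 := IsPreconnected.union (K, -K)
    (Or.inl (Or.inl ⟨rfl, hmK⟩) : (K, -K) ∈ (({K} : Set ℝ) ×ˢ Set.Icc (-K) K ∪ _) ∪ _)
    (⟨hpK, rfl⟩ : (K, -K) ∈ Set.Icc (-K) K ×ˢ ({-K} : Set ℝ)) h2 hB
  convert h3 using 1
  ext ⟨x, y⟩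
  simp only [Set.mem_ofPred_eq, Set.mem_union, Set.mem_prod, Set.mem_singleton_iff, Set.mem_Icc, abs_le, abs_eq hK]
  constructor
  · rintro ⟨hx, hy, (rfl | rfl) | (rfl | rfl)⟩
    · exact Or.inl (Or.inl (Or.inl ⟨rfl, hy⟩))
    · exact Or.inl (Or.inr ⟨rfl, hy⟩)
    · exact Or.inl (Or.inl (Or.inr ⟨hx, rfl⟩))
    · exact Or.inr ⟨hx, rfl⟩
  · rintro (((⟨rfl, hy⟩ | ⟨hx, rfl⟩) | ⟨rfl, hy⟩) | ⟨hx, rfl⟩)
    · exact ⟨⟨by linarith, le_refl _⟩, hy, Or.inl (Or.inl rfl)⟩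
    · exact ⟨hx, ⟨by linarith, le_refl _⟩, Or.inr (Or.inl rfl)⟩
    · exact ⟨⟨le_refl _, by linarith⟩, hy, Or.inl (Or.inr rfl)⟩
    · exact ⟨hx, ⟨le_refl _, by linarith⟩, Or.inr (Or.inr rfl)⟩

/-- a function which is larger on the boundary of the square than at some point of it has a critical point inside -/
theorem slv_dich_aux (K e : ℝ) (F F1 F2 : ℝ → ℝ → ℝ) (hc : Continuous fun p : ℝ × ℝ => F p.1 p.2)
    (h1 : ∀ x y, HasDerivAt (fun x' => F x' y) (F1 x y) x) (h2 : ∀ x y, HasDerivAt (fun y' => F x y') (F2 x y) y)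
    (x0 y0 : ℝ) (hx0 : |x0| ≤ K) (hy0 : |y0| ≤ K) (h0 : F x0 y0 ≤ e)
    (hb : ∀ x y, |x| ≤ K → |y| ≤ K → (|x| = K ∨ |y| = K) → e < F x y) :
    ∃ x y, |x| < K ∧ |y| < K ∧ F1 x y = 0 ∧ F2 x y = 0 := by
  have hQ : IsCompact (Set.Icc (-K) K ×ˢ Set.Icc (-K) K) := isCompact_Icc.prod isCompact_Icc
  have hne : (Set.Icc (-K) K ×ˢ Set.Icc (-K) K).Nonempty := ⟨(x0, y0), abs_le.mp hx0, abs_le.mp hy0⟩
  obtain ⟨⟨xm, ym⟩, hm, hmin⟩ := hQ.exists_isMinOn hne hc.continuousOn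
  have hxm : |xm| ≤ K := abs_le.mpr hm.1
  have hym : |ym| ≤ K := abs_le.mpr hm.2
  have hle : F xm ym ≤ e := le_trans (hmin (⟨abs_le.mp hx0, abs_le.mp hy0⟩ : (x0, y0) ∈ Set.Icc (-K) K ×ˢ Set.Icc (-K) K)) h0
  have hx : |xm| < K := by
    rcases lt_or_eq_of_le hxm with h | h
    · exact h
    · exact absurd (hb xm ym hxm hym (Or.inl h)) (not_lt.mpr hle)
  have hy : |ym| < K := by
    rcases lt_or_eq_of_le hym with h | h
    · exact h
    · exact absurd (hb xm ym hxm hym (Or.inr h)) (not_lt.mpr hle)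
  refine ⟨xm, ym, hx, hy, ?_, ?_⟩
  · have hloc : IsLocalMin (fun x' => F x' ym) xm := by
      have hn : {x : ℝ | |x| < K} ∈ nhds xm := (isOpen_lt continuous_abs continuous_const).mem_nhds hx
      refine Filter.mem_of_superset hn ?_
      intro x hx'
      exact hmin (⟨abs_le.mp (le_of_lt hx'), hm.2⟩ : (x, ym) ∈ Set.Icc (-K) K ×ˢ Set.Icc (-K) K)
    exact hloc.hasDerivAt_eq_zero (h1 xm ym)
  · have hloc : IsLocalMin (fun y' => F xm y') ym := by
      have hn : {y : ℝ | |y| < K} ∈ nhds ym := (isOpen_lt continuous_abs continuous_const).mem_nhds hy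
      refine Filter.mem_of_superset hn ?_
      intro y hy'
      exact hmin (⟨hm.1, abs_le.mp (le_of_lt hy')⟩ : (xm, y) ∈ Set.Icc (-K) K ×ˢ Set.Icc (-K) K)
    exact hloc.hasDerivAt_eq_zero (h2 xm ym)

/-- **LEAF L-252-SLO-K4: the dichotomy on the square.**   A `C¹` function which is `≤ e` in absolute value somewhere in the square is so at a point of the boundary, or it has a critical point inside.
PLAN.  Assume no boundary point has `|F| ≤ e`.   The boundary is preconnected (4 segments = continuous images of `Icc (-K) K`, consecutive ones share a corner: `IsPreconnected.union`), or argue edge by edge with `intermediate_value_Icc`: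
`F > e` on the whole boundary or `F < -e` on the whole boundary.   In the first case take a minimum of `F` on the compact square (`IsCompact.exists_isMinOn`; `isCompact_Icc.prod isCompact_Icc`): its value is `≤ F x0 y0 ≤ e`, so it is not on the boundary;
the restrictions to the two coordinate lines have a local minimum there: `IsLocalMin.hasDerivAt_eq_zero`.   Second case: maximum. -/
theorem slv_dich (K e : ℝ) (F F1 F2 : ℝ → ℝ → ℝ) (hc : Continuous fun p : ℝ × ℝ => F p.1 p.2)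
    (h1 : ∀ x y, HasDerivAt (fun x' => F x' y) (F1 x y) x) (h2 : ∀ x y, HasDerivAt (fun y' => F x y') (F2 x y) y)
    (x0 y0 : ℝ) (hx0 : |x0| ≤ K) (hy0 : |y0| ≤ K) (h0 : |F x0 y0| ≤ e) :
    (∃ x y, |x| ≤ K ∧ |y| ≤ K ∧ (|x| = K ∨ |y| = K) ∧ |F x y| ≤ e) ∨
    (∃ x y, |x| < K ∧ |y| < K ∧ F1 x y = 0 ∧ F2 x y = 0) := by
  have hK : 0 ≤ K := le_trans (abs_nonneg _) hx0
  have he : 0 ≤ e := le_trans (abs_nonneg _) h0
  by_cases hex : ∃ x y, |x| ≤ K ∧ |y| ≤ K ∧ (|x| = K ∨ |y| = K) ∧ |F x y| ≤ e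
  · exact Or.inl hex
  right
  have hb : ∀ x y, |x| ≤ K → |y| ≤ K → (|x| = K ∨ |y| = K) → e < |F x y| := by
    intro x y hx hy hxy
    by_contra h
    exact hex ⟨x, y, hx, hy, hxy, not_lt.mp h⟩
  have hpre := slv_bdry_preconn K hK
  -- no sign change on the boundary
  have hsign : ∀ x y x' y', |x| ≤ K → |y| ≤ K → (|x| = K ∨ |y| = K) → |x'| ≤ K → |y'| ≤ K → (|x'| = K ∨ |y'| = K) →
      F x y < 0 → 0 < F x' y' → False := by
    intro x y x' y' hx hy hxy hx' hy' hxy' hneg hpos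
    have hiv := hpre.intermediate_value (a := (x, y)) (b := (x', y')) ⟨hx, hy, hxy⟩ ⟨hx', hy', hxy'⟩
      (f := fun p : ℝ × ℝ => F p.1 p.2) hc.continuousOn
    obtain ⟨⟨u, w⟩, ⟨hu, hw, huw⟩, hz⟩ := hiv ⟨hneg.le, hpos.le⟩
    have h3 := hb u w hu hw huw
    have hz' : F u w = 0 := hz
    rw [hz', abs_zero] at h3
    linarith
  have hKK : |K| = K := abs_of_nonneg hK
  have hcor := hb K K hKK.le hKK.le (Or.inl hKK)
  rcases lt_abs.mp hcor with hpos | hneg
  · -- `F > e` on the boundary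
    refine slv_dich_aux K e F F1 F2 hc h1 h2 x0 y0 hx0 hy0 (le_trans (le_abs_self _) h0) ?_
    intro x y hx hy hxy
    rcases lt_abs.mp (hb x y hx hy hxy) with h | h
    · exact h
    · exact absurd (hsign x y K K hx hy hxy hKK.le hKK.le (Or.inl hKK) (by linarith) (by linarith)) id
  · -- `F < -e` on the boundary
    obtain ⟨x, y, hx, hy, e1, e2⟩ := slv_dich_aux K e (fun x y => -F x y) (fun x y => -F1 x y) (fun x y => -F2 x y)
      hc.neg (fun x y => (h1 x y).neg) (fun x y => (h2 x y).neg) x0 y0 hx0 hy0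
      (le_trans (neg_le_abs _) h0) (by
        intro x y hx hy hxy
        rcases lt_abs.mp (hb x y hx hy hxy) with h | h
        · exact absurd (hsign K K x y hKK.le hKK.le (Or.inl hKK) hx hy hxy (by linarith) (by linarith)) id
        · exact h)
    exact ⟨x, y, hx, hy, neg_eq_zero.mp e1, neg_eq_zero.mp e2⟩

/-- **LEAF L-252-SLO-K5: the locator.**   `Γ(s) = θ Λ(b)` confines `s` to a fixed strip.
PLAN.  `P := adj(A) u = (a22 u1 - a12 u2, a11 u2 - a12 u1)`, `P' := adj(A) v`.   `(n1, n2) := (-P.2, P.1)` if `P ≠ 0`, else `(1, 0)`;  `c := (n1 P'.1 + n2 P'.2)/det`.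
From the two equations: `det · (s - θ b) = θ P - P'` (linear combination), multiply by `n` (`n · P = 0`), divide by `det` (`field_simp`, `linear_combination`). -/
theorem slv_locator (D : SlvD) (hdet : D.det ≠ 0) : ∃ n1 n2 c : ℝ, (n1 ≠ 0 ∨ n2 ≠ 0) ∧
    ∀ s1 s2 θ b1 b2 : ℝ, D.G1 s1 s2 = θ * D.L1 b1 b2 → D.G2 s1 s2 = θ * D.L2 b1 b2 →
      n1 * s1 + n2 * s2 + c = θ * (n1 * b1 + n2 * b2) := by
  obtain ⟨P1, hP1⟩ : ∃ P1, P1 = D.a22 * D.u1 - D.a12 * D.u2 := ⟨_, rfl⟩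
  obtain ⟨P2, hP2⟩ : ∃ P2, P2 = D.a11 * D.u2 - D.a12 * D.u1 := ⟨_, rfl⟩
  obtain ⟨Q1, hQ1⟩ : ∃ Q1, Q1 = D.a22 * D.v1 - D.a12 * D.v2 := ⟨_, rfl⟩
  obtain ⟨Q2, hQ2⟩ : ∃ Q2, Q2 = D.a11 * D.v2 - D.a12 * D.v1 := ⟨_, rfl⟩
  -- the two consequences of the equations
  have key : ∀ s1 s2 θ b1 b2 : ℝ, D.G1 s1 s2 = θ * D.L1 b1 b2 → D.G2 s1 s2 = θ * D.L2 b1 b2 →
      D.det * (s1 - θ * b1) = θ * P1 - Q1 ∧ D.det * (s2 - θ * b2) = θ * P2 - Q2 := by
    intro s1 s2 θ b1 b2 h1 h2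
    simp only [SlvD.G1, SlvD.G2, SlvD.L1, SlvD.L2] at h1 h2
    simp only [SlvD.det, hP1, hP2, hQ1, hQ2]
    constructor
    · linear_combination D.a22 * h1 - D.a12 * h2
    · linear_combination D.a11 * h2 - D.a12 * h1
  have main : ∀ n1 n2 : ℝ, n1 * P1 + n2 * P2 = 0 → ∀ s1 s2 θ b1 b2 : ℝ, D.G1 s1 s2 = θ * D.L1 b1 b2 →
      D.G2 s1 s2 = θ * D.L2 b1 b2 → n1 * s1 + n2 * s2 + (n1 * Q1 + n2 * Q2) / D.det = θ * (n1 * b1 + n2 * b2) := by
    intro n1 n2 hn s1 s2 θ b1 b2 h1 h2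
    obtain ⟨k1, k2⟩ := key s1 s2 θ b1 b2 h1 h2
    field_simp
    linear_combination n1 * k1 + n2 * k2 + θ * hn
  by_cases hP : P1 = 0 ∧ P2 = 0
  · exact ⟨1, 0, _, Or.inl one_ne_zero, main 1 0 (by rw [hP.1, hP.2]; ring)⟩
  · refine ⟨-P2, P1, _, ?_, main (-P2) P1 (by ring)⟩
    by_contra hcon
    rw [not_or, not_not, not_not] at hcon
    exact hP ⟨hcon.2, by linarith [hcon.1]⟩

/-! ## 3. Products -/

/-- **LEAF L-252-SLO-K6a.**   `Measure.prod_apply hS`, `lintegral_mono` against `(toMeasurable μ B).indicator c`. -/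
theorem slv_prod_le {α β : Type} [MeasurableSpace α] [MeasurableSpace β] (μ : Measure α) (ν : Measure β) [SFinite μ] [SFinite ν]
    (S : Set (α × β)) (hS : MeasurableSet S) (B : Set α) (c : ℝ≥0∞) (hB : ∀ p ∈ S, p.1 ∈ B)
    (hc : ∀ a, ν {b | (a, b) ∈ S} ≤ c) : (μ.prod ν) S ≤ μ B * c := by
  rw [Measure.prod_apply hS]
  calc ∫⁻ a, ν (Prod.mk a ⁻¹' S) ∂μ ≤ ∫⁻ a, (toMeasurable μ B).indicator (fun _ => c) a ∂μ := by
        refine lintegral_mono fun a => ?_
        by_cases ha : a ∈ toMeasurable μ B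
        · rw [Set.indicator_of_mem ha]
          exact hc a
        · have : Prod.mk a ⁻¹' S = ∅ := by
            ext b
            simp only [Set.mem_preimage, Set.mem_empty_iff_false, iff_false]
            exact fun h => ha (subset_toMeasurable μ B (hB _ h))
          rw [this, measure_empty]
          exact zero_le
    _ = c * μ (toMeasurable μ B) := by
        rw [lintegral_indicator (measurableSet_toMeasurable μ B), setLIntegral_const]
    _ = μ B * c := by rw [measure_toMeasurable, mul_comm]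

/-- **LEAF L-252-SLO-K6b.**   `Measure.prod_apply_symm hS`. -/
theorem slv_prod_le' {α β : Type} [MeasurableSpace α] [MeasurableSpace β] (μ : Measure α) (ν : Measure β) [SFinite μ] [SFinite ν]
    (S : Set (α × β)) (hS : MeasurableSet S) (B : Set β) (c : ℝ≥0∞) (hB : ∀ p ∈ S, p.2 ∈ B)
    (hc : ∀ b, μ {a | (a, b) ∈ S} ≤ c) : (μ.prod ν) S ≤ c * ν B := by
  rw [Measure.prod_apply_symm hS]
  calc ∫⁻ b, μ ((fun a => (a, b)) ⁻¹' S) ∂ν ≤ ∫⁻ b, (toMeasurable ν B).indicator (fun _ => c) b ∂ν := by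
        refine lintegral_mono fun b => ?_
        by_cases hb : b ∈ toMeasurable ν B
        · rw [Set.indicator_of_mem hb]
          exact hc b
        · have : (fun a => (a, b)) ⁻¹' S = ∅ := by
            ext a
            simp only [Set.mem_preimage, Set.mem_empty_iff_false, iff_false]
            exact fun h => hb (subset_toMeasurable ν B (hB _ h))
          rw [this, measure_empty]
          exact zero_le
    _ = c * ν (toMeasurable ν B) := by
        rw [lintegral_indicator (measurableSet_toMeasurable ν B), setLIntegral_const]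
    _ = c * ν B := by rw [measure_toMeasurable]

/-- **LEAF L-252-SLO-K6c: fibres in the THIRD coordinate.**   `volume = volume.prod (volume.prod volume)` (`Measure.volume_eq_prod`);  transport by `MeasurableEquiv.prodAssoc` (`measurePreserving_prodAssoc` / `volume_preserving_prodAssoc`) and `slv_prod_le`. -/
theorem slv_vol3_thd (S : Set (ℝ × ℝ × ℝ)) (hS : MeasurableSet S) (B : Set (ℝ × ℝ)) (c : ℝ≥0∞)
    (hB : ∀ p ∈ S, (p.1, p.2.1) ∈ B) (hc : ∀ x y : ℝ, volume {z : ℝ | (x, y, z) ∈ S} ≤ c) : volume S ≤ volume B * c := by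
  have hmp : MeasurePreserving (MeasurableEquiv.prodAssoc : (ℝ × ℝ) × ℝ ≃ᵐ ℝ × ℝ × ℝ) volume volume :=
    volume_preserving_prodAssoc
  rw [← hmp.measure_preimage_equiv S]
  have h := slv_prod_le (volume : Measure (ℝ × ℝ)) (volume : Measure ℝ)
    ((MeasurableEquiv.prodAssoc : (ℝ × ℝ) × ℝ ≃ᵐ ℝ × ℝ × ℝ) ⁻¹' S)
    ((MeasurableEquiv.prodAssoc : (ℝ × ℝ) × ℝ ≃ᵐ ℝ × ℝ × ℝ).measurable hS) B c
    (fun p hp => hB _ hp) (fun a => hc a.1 a.2)
  exact h

/-- **LEAF L-252-SLO-K6d: exchange of the first two coordinates**, arbitrary sets.   The map is a measurable equivalence preserving `volume` (`prodAssoc`, `Measure.prod_swap`/`measurePreserving_swap`, `MeasurePreserving.prod`);  `MeasurePreserving.measure_preimage_equiv`. -/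
theorem slv_swap12 (S : Set (ℝ × ℝ × ℝ)) : volume {p : ℝ × ℝ × ℝ | (p.2.1, p.1, p.2.2) ∈ S} = volume S := by
  have h1 : MeasurePreserving (MeasurableEquiv.prodAssoc : (ℝ × ℝ) × ℝ ≃ᵐ ℝ × ℝ × ℝ) volume volume :=
    volume_preserving_prodAssoc
  have h2 : MeasurePreserving ((MeasurableEquiv.prodAssoc : (ℝ × ℝ) × ℝ ≃ᵐ ℝ × ℝ × ℝ).symm) volume volume := h1.symm _
  have h3 : MeasurePreserving (Prod.swap : ℝ × ℝ → ℝ × ℝ) volume volume := Measure.measurePreserving_swap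
  have h4 : MeasurePreserving (Prod.map (Prod.swap : ℝ × ℝ → ℝ × ℝ) (id : ℝ → ℝ)) volume volume :=
    h3.prod (MeasurePreserving.id volume)
  have h5 := h1.comp (h4.comp h2)
  obtain ⟨e, he⟩ : ∃ e : ℝ × ℝ × ℝ ≃ᵐ ℝ × ℝ × ℝ, ∀ p, e p = (p.2.1, p.1, p.2.2) :=
    ⟨(MeasurableEquiv.prodAssoc.symm.trans ((MeasurableEquiv.prodComm.prodCongr (MeasurableEquiv.refl ℝ)).trans
      MeasurableEquiv.prodAssoc)), fun p => rfl⟩
  have h6 : MeasurePreserving e volume volume := by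
    have : (e : ℝ × ℝ × ℝ → ℝ × ℝ × ℝ) = (MeasurableEquiv.prodAssoc : (ℝ × ℝ) × ℝ ≃ᵐ ℝ × ℝ × ℝ) ∘
        (Prod.map (Prod.swap : ℝ × ℝ → ℝ × ℝ) (id : ℝ → ℝ) ∘ (MeasurableEquiv.prodAssoc : (ℝ × ℝ) × ℝ ≃ᵐ ℝ × ℝ × ℝ).symm) := by
      funext p
      rw [he p]
      rfl
    rw [this]
    exact h5
  have h7 := h6.measure_preimage_equiv S
  rw [← h7]
  congr 1
  ext p
  simp only [Set.mem_preimage, Set.mem_ofPred_eq, he p]

/-- the volume of a rectangle -/
theorem slv_rect (M1 M2 : ℝ) : volume {q : ℝ × ℝ | |q.1| ≤ M1 ∧ |q.2| ≤ M2} = ENNReal.ofReal (2 * M1) * ENNReal.ofReal (2 * M2) := by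
  have : {q : ℝ × ℝ | |q.1| ≤ M1 ∧ |q.2| ≤ M2} = Set.Icc (-M1) M1 ×ˢ Set.Icc (-M2) M2 := by
    ext q
    simp only [Set.mem_setOf_eq, Set.mem_prod, Set.mem_Icc, abs_le]
  rw [this, Measure.volume_eq_prod, Measure.prod_prod, Real.volume_Icc, Real.volume_Icc]
  congr 2 <;> ring

theorem slv_lin_vol (α g r : ℝ) (hα : α ≠ 0) : volume {x : ℝ | |α * x + g| ≤ r} ≤ ENNReal.ofReal (2 * r / |α|) := by
  have hsub : {x : ℝ | |α * x + g| ≤ r} ⊆ Metric.closedBall (-g / α) (r / |α|) := by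
    intro x hx
    rw [Metric.mem_closedBall, Real.dist_eq, le_div_iff₀ (abs_pos.2 hα), ← abs_mul]
    have : (x - -g / α) * α = α * x + g := by
      field_simp
      ring
    rw [this]
    exact hx
  refine (measure_mono hsub).trans ?_
  rw [Real.volume_closedBall]
  apply le_of_eq
  congr 1
  ring

/-- **LEAF L-252-SLO-K7: area of a strip in the box.**
PLAN.  The set is closed (`isClosed_le`, continuity), hence measurable.   If `|n2| ≤ |n1|` (so `n1 ≠ 0`): for fixed `s.2` the `s.1`-fibre lies in `Icc (x0 - 2ρ) (x0 + 2ρ)`, `x0 = -(n2 s.2 + c)/n1`, because `ρ (|n1|+|n2|)/|n1| ≤ 2ρ`: `slv_prod_le'` with `B = Icc (-2K) (2K)`.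
Otherwise the same with `slv_prod_le`. -/
theorem slv_strip_vol (K n1 n2 c ρ : ℝ) (hK : 0 ≤ K) (hρ : 0 ≤ ρ) (hn : n1 ≠ 0 ∨ n2 ≠ 0) :
    volume (slvStrip K n1 n2 c ρ) ≤ ENNReal.ofReal (16 * K * ρ) := by
  have hS : MeasurableSet (slvStrip K n1 n2 c ρ) := by
    unfold slvStrip
    have c1 : Continuous fun s : ℝ × ℝ => |s.1| := by fun_prop
    have c2 : Continuous fun s : ℝ × ℝ => |s.2| := by fun_prop
    have c3 : Continuous fun s : ℝ × ℝ => |n1 * s.1 + n2 * s.2 + c| := by fun_prop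
    exact ((isClosed_le c1 continuous_const).inter
      ((isClosed_le c2 continuous_const).inter (isClosed_le c3 continuous_const))).measurableSet
  have hB : volume (Set.Icc (-(2 * K)) (2 * K)) = ENNReal.ofReal (4 * K) := by
    rw [Real.volume_Icc]
    congr 1
    ring
  have key : ∀ α β : ℝ, α ≠ 0 → |β| ≤ |α| → 2 * (ρ * (|α| + |β|)) / |α| ≤ 4 * ρ := by
    intro α β hα hβ
    rw [div_le_iff₀ (abs_pos.2 hα)]
    nlinarith [abs_nonneg α]
  rw [Measure.volume_eq_prod]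
  by_cases h : |n2| ≤ |n1|
  · have hn1 : n1 ≠ 0 := by
      rcases hn with h1 | h2
      · exact h1
      · intro h0
        rw [h0, abs_zero] at h
        exact h2 (abs_eq_zero.1 (le_antisymm h (abs_nonneg _)))
    have h1 := slv_prod_le' (volume : Measure ℝ) (volume : Measure ℝ) (slvStrip K n1 n2 c ρ) hS
      (Set.Icc (-(2 * K)) (2 * K)) (ENNReal.ofReal (4 * ρ)) (fun p hp => abs_le.1 hp.2.1) (fun b => by
        refine (measure_mono ?_).trans ((slv_lin_vol n1 (n2 * b + c) (ρ * (|n1| + |n2|)) hn1).trans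
          (ENNReal.ofReal_le_ofReal (key n1 n2 hn1 h)))
        intro a ha
        have := ha.2.2
        simp only at this
        show |n1 * a + (n2 * b + c)| ≤ _
        rwa [← add_assoc])
    refine h1.trans (le_of_eq ?_)
    rw [hB, ← ENNReal.ofReal_mul (by positivity)]
    congr 1
    ring
  · push Not at h
    have hn2 : n2 ≠ 0 := by
      intro h0
      rw [h0, abs_zero] at h
      exact absurd h (not_lt.2 (abs_nonneg _))
    have h1 := slv_prod_le (volume : Measure ℝ) (volume : Measure ℝ) (slvStrip K n1 n2 c ρ) hS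
      (Set.Icc (-(2 * K)) (2 * K)) (ENNReal.ofReal (4 * ρ)) (fun p hp => abs_le.1 hp.1) (fun a => by
        refine (measure_mono ?_).trans ((slv_lin_vol n2 (n1 * a + c) (ρ * (|n2| + |n1|)) hn2).trans
          (ENNReal.ofReal_le_ofReal (key n2 n1 hn2 h.le)))
        intro b hb
        have := hb.2.2
        simp only at this
        show |n2 * b + (n1 * a + c)| ≤ _
        have e : n2 * b + (n1 * a + c) = n1 * a + n2 * b + c := by ring
        rw [e, add_comm |n2| |n1|]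
        exact this)
    refine h1.trans (le_of_eq ?_)
    rw [hB, ← ENNReal.ofReal_mul (by positivity)]
    congr 1
    ring

end Claimed.Agent.R252
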