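-- KEEP
import Claimed.Agent.R252.Slope.KitContract

/-!
# ROW 252, BOX 7 (T2, slope volume), file 3: THE EDGE LEMMA.   CONTRACT      (architect helper17; prefix `slv_`)

PAPER-FREE, Mathlib only.   Every `sorry` is a leaf `L-252-SLO-E*`.   STATEMENTS ARE FROZEN (defects: one line to helper17).   Prove IN PLACE.

`E : SlvE` is ANY polynomial of degree `≤ 2` in `(t, y)`, `y ∈ ℝ`;  `E(t, b + t s) = E0 b + E1 b s · t + E2 s · t²`.
`slvEdge E K e = {(s, σ) : |s| ≤ 2K, |σ| ≤ 1, ∃ |b| ≤ K, 1/(4K) ≤ |g| ≤ 2K, |g² - E0 b| ≤ e, |2 g σ - E1 b s| ≤ e, |σ² - E2 s| ≤ e}`.      CLAIM: area `≤ 1000 K³ e`, uniformly in `E`  (`e ≤ 1/(32 K²)`).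
Proof.  `γ b = √(E0 b)`, `σ* = E1/(2γ)`, `ψ = E2 - σ*²`, `N = Γ(s) - (σ*/γ) Λ(b)`.    IDENTITY:  `∂σ*/∂b = N/(2γ)`,  `∂ψ/∂s = N`,  `ψ` is a polynomial of degree `≤ 2` in `s`.
A point of the edge set with `g > 0` has `|σ - σ*(b,s)| ≤ r := 27 K² e` for a `b ∈ Dm`.   `Dm` is the union of two order connected sets, whose images under `σ*(·, s)` are intervals `J`;
`|(J + [-r, r]) ∩ V| ≤ |J ∩ V| + 2 r`, `V = {x : |x² - E2 s| ≤ e}`, and `J ∩ V` is the image of `{b : |ψ(b,s)| ≤ e}`: 1-D area inequality.   Then Tonelli and Lemma M in the variable `s`.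
-/

set_option autoImplicit false

namespace Claimed.Agent.R252

open MeasureTheory
open scoped ENNReal

/-- **LEAF L-252-SLO-E1: the derivative of the exact hidden slope.**
PLAN.  `HasDerivAt (E.E0) (E.Lm b) b`, `HasDerivAt (fun b => E.E1 b s) (E.Gm s) b` (polynomials);  `HasDerivAt.sqrt` (`E.E0 b ≠ 0`);  `HasDerivAt.div`;  then `convert … using 1`, `field_simp`, `Real.sq_sqrt`/`Real.mul_self_sqrt`, `ring`. -/
theorem slv_sg_deriv (E : SlvE) (b s : ℝ) (hb : 0 < E.E0 b) :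
    HasDerivAt (fun b' => E.sg b' s) (E.N b s / (2 * E.gam b)) b := by
  have h0 : HasDerivAt (fun b' => E.E0 b') (E.Lm b) b := by
    unfold SlvE.E0 SlvE.Lm
    have h := (((hasDerivAt_id' b).const_mul E.eu).const_add E.e0).add ((((hasDerivAt_id' b).pow 2).const_mul E.ea).div_const 2)
    refine h.congr_deriv ?_
    simp
    ring
  have h1 : HasDerivAt (fun b' => E.E1 b' s) (E.Gm s) b := by
    unfold SlvE.E1 SlvE.Gm
    have h := (((hasDerivAt_id' b).const_mul E.ev).const_add (E.et + E.eu * s)).add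
      (((hasDerivAt_id' b).const_mul E.ea).mul_const s)
    refine h.congr_deriv ?_
    simp
  have hg : HasDerivAt (fun b' => 2 * E.gam b') (2 * (E.Lm b / (2 * Real.sqrt (E.E0 b)))) b := by
    unfold SlvE.gam
    exact (h0.sqrt hb.ne').const_mul 2
  have hγ : 0 < E.gam b := Real.sqrt_pos.2 hb
  have hd := h1.div hg (by positivity)
  have hsq : Real.sqrt (E.E0 b) = E.gam b := rfl
  rw [hsq] at hd
  refine HasDerivAt.congr_deriv (f := fun b' => E.sg b' s) hd ?_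
  unfold SlvE.N SlvE.sg
  field_simp

/-- **LEAF L-252-SLO-E2: `ψ` is a quadratic polynomial in `s` with derivative `N`.**   `E1 b s = (et + ev b) + Λ(b) s`;  `γ² = E0 b` (`Real.sq_sqrt`);  `field_simp`, `ring`. -/
theorem slv_psi_quad (E : SlvE) (b : ℝ) (hb : 0 < E.E0 b) : ∃ A B C : ℝ, ∀ s : ℝ,
    E.psi b s = A * s ^ 2 + B * s + C ∧ E.N b s = 2 * A * s + B := by
  have hγ : 0 < E.gam b := Real.sqrt_pos.2 hb
  have hsq : E.gam b ^ 2 = E.E0 b := Real.sq_sqrt hb.le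
  refine ⟨E.ea / 2 - (E.Lm b) ^ 2 / (4 * E.gam b ^ 2), E.ev - (E.et + E.ev * b) * E.Lm b / (2 * E.gam b ^ 2),
    E.ett / 2 - (E.et + E.ev * b) ^ 2 / (4 * E.gam b ^ 2), fun s => ⟨?_, ?_⟩⟩
  · unfold SlvE.psi SlvE.sg SlvE.E2 SlvE.E1 SlvE.Lm
    field_simp
    ring
  · unfold SlvE.N SlvE.sg SlvE.Gm SlvE.E1 SlvE.Lm
    field_simp
    ring

/-- **LEAF L-252-SLO-E3: from the three inequalities to the exact sheet** (`g > 0`).
PLAN.  `E0 b ≥ g² - e ≥ 1/(16K²) - 1/(32K²)`.   `γ := √(E0 b) ≥ 1/(6K)` (`Real.le_sqrt`, `36 ≥ 32`).   `|g - γ| (g + γ) = |g² - E0 b| ≤ e`, `g + γ ≥ 1/(4K)`: `|g - γ| ≤ 4 K e`.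
`2γ (σ - σ*) = 2 (γ - g) σ + (2 g σ - E1)`, so `|σ - σ*| ≤ (8 K e + e) · 3K ≤ 27 K² e`. -/
theorem slv_edge_close (E : SlvE) (K e b g s σ : ℝ) (hK : 1 ≤ K) (he : e ≤ 1 / (32 * K ^ 2)) (hb : |b| ≤ K)
    (hg : 1 / (4 * K) ≤ g) (hσ : |σ| ≤ 1) (h0 : |g ^ 2 - E.E0 b| ≤ e) (h1 : |2 * g * σ - E.E1 b s| ≤ e) :
    b ∈ slvDm E K ∧ |σ - E.sg b s| ≤ 27 * K ^ 2 * e := by
  have hK0 : 0 < K := by linarith
  have he0 : 0 ≤ e := (abs_nonneg _).trans h0
  have hg0 : 0 < g := lt_of_lt_of_le (by positivity) hg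
  have hg2 : 1 / (16 * K ^ 2) ≤ g ^ 2 := by
    have : (1 / (4 * K)) ^ 2 ≤ g ^ 2 := pow_le_pow_left₀ (by positivity) hg 2
    have e1 : (1 / (4 * K)) ^ 2 = 1 / (16 * K ^ 2) := by
      field_simp
      ring
    rwa [e1] at this
  have hE0 : 1 / (32 * K ^ 2) ≤ E.E0 b := by
    have e1 : 1 / (16 * K ^ 2) = 1 / (32 * K ^ 2) + 1 / (32 * K ^ 2) := by
      field_simp
      ring
    have := (abs_le.1 h0).2
    linarith
  have hDm : b ∈ slvDm E K := ⟨hb, hE0⟩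
  refine ⟨hDm, ?_⟩
  have hE0pos : 0 < E.E0 b := lt_of_lt_of_le (by positivity) hE0
  have hγ6 : 1 / (6 * K) ≤ E.gam b := by
    have h1 : (1 / (6 * K)) ^ 2 ≤ E.E0 b := by
      refine le_trans ?_ hE0
      rw [div_pow, one_pow, mul_pow]
      apply one_div_le_one_div_of_le (by positivity)
      nlinarith [sq_nonneg K]
    exact Real.le_sqrt_of_sq_le h1
  obtain ⟨γ, hγdef⟩ : ∃ γ, γ = E.gam b := ⟨_, rfl⟩
  have hγ0 : 0 < γ := by
    rw [hγdef]
    exact lt_of_lt_of_le (by positivity) hγ6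
  have hsq : γ ^ 2 = E.E0 b := by
    rw [hγdef]
    exact Real.sq_sqrt hE0pos.le
  -- |g - γ| ≤ 4 K e
  have hgg : |g - γ| ≤ 4 * K * e := by
    have h2 : |g - γ| * (g + γ) ≤ e := by
      have : |g - γ| * (g + γ) = |g ^ 2 - E.E0 b| := by
        rw [← hsq, show g ^ 2 - γ ^ 2 = (g - γ) * (g + γ) by ring, abs_mul, abs_of_pos (by linarith : 0 < g + γ)]
      rw [this]
      exact h0
    have h3 : |g - γ| * (1 / (4 * K)) ≤ |g - γ| * (g + γ) :=
      mul_le_mul_of_nonneg_left (by linarith) (abs_nonneg _)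
    have h4 : |g - γ| * (1 / (4 * K)) ≤ e := h3.trans h2
    have h5 : |g - γ| = |g - γ| * (1 / (4 * K)) * (4 * K) := by
      field_simp
    rw [h5]
    calc |g - γ| * (1 / (4 * K)) * (4 * K) ≤ e * (4 * K) := mul_le_mul_of_nonneg_right h4 (by positivity)
      _ = 4 * K * e := by ring
  have hsg : E.sg b s = E.E1 b s / (2 * γ) := by
    rw [hγdef]
    rfl
  have hid : 2 * γ * (σ - E.sg b s) = 2 * (γ - g) * σ + (2 * g * σ - E.E1 b s) := by
    rw [hsg]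
    field_simp
    ring
  have hab : 2 * γ * |σ - E.sg b s| ≤ 9 * K * e := by
    have : 2 * γ * |σ - E.sg b s| = |2 * (γ - g) * σ + (2 * g * σ - E.E1 b s)| := by
      rw [← hid, abs_mul, abs_of_pos (by linarith : 0 < 2 * γ)]
    rw [this]
    refine (abs_add_le _ _).trans ?_
    have h6 : |2 * (γ - g) * σ| ≤ 8 * K * e := by
      rw [abs_mul, abs_mul, abs_two, abs_sub_comm]
      calc 2 * |g - γ| * |σ| ≤ 2 * |g - γ| * 1 := mul_le_mul_of_nonneg_left hσ (by positivity)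
        _ ≤ 8 * K * e := by linarith
    have h7 : e ≤ K * e := le_mul_of_one_le_left he0 hK
    linarith
  have h8 : 1 / (3 * K) ≤ 2 * γ := by
    have : 1 / (3 * K) = 2 * (1 / (6 * K)) := by
      field_simp
      ring
    rw [this, hγdef]
    linarith
  have h9 : 1 / (3 * K) * |σ - E.sg b s| ≤ 9 * K * e :=
    (mul_le_mul_of_nonneg_right h8 (abs_nonneg _)).trans hab
  have h10 : |σ - E.sg b s| = 3 * K * (1 / (3 * K) * |σ - E.sg b s|) := by
    field_simp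
  rw [h10]
  calc 3 * K * (1 / (3 * K) * |σ - E.sg b s|) ≤ 3 * K * (9 * K * e) := mul_le_mul_of_nonneg_left h9 (by positivity)
    _ = 27 * K ^ 2 * e := by ring

/-- on `Dm`: `γ ≥ 1/(6K)` -/
theorem slv_gam_ge (E : SlvE) (K b : ℝ) (hK : 1 ≤ K) (hb : b ∈ slvDm E K) : 1 / (6 * K) ≤ E.gam b := by
  have h1 : (1 / (6 * K)) ^ 2 ≤ E.E0 b := by
    refine le_trans ?_ hb.2
    rw [div_pow, one_pow, mul_pow]
    apply one_div_le_one_div_of_le (by positivity)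
    nlinarith [sq_nonneg K]
  exact Real.le_sqrt_of_sq_le h1

/-- **LEAF L-252-SLO-E4: measurability.**   `E.psi`, `E.N`, `E.gam` are built from polynomials, `Real.sqrt` and division: `Measurable` by `fun_prop`/`measurability` after unfolding;  `Measurable.indicator`, `measurableSet_le`. -/
theorem slv_F_meas (E : SlvE) (e : ℝ) : Measurable (slvF E e) := by
  have hg : Measurable fun p : ℝ × ℝ => E.gam p.1 := by
    unfold SlvE.gam SlvE.E0
    fun_prop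
  have hs : Measurable fun p : ℝ × ℝ => E.sg p.1 p.2 := by
    unfold SlvE.sg SlvE.E1
    fun_prop
  have hpsi : Measurable fun p : ℝ × ℝ => E.psi p.1 p.2 := by
    unfold SlvE.psi SlvE.E2
    fun_prop
  have hN : Measurable fun p : ℝ × ℝ => E.N p.1 p.2 := by
    unfold SlvE.N SlvE.Gm SlvE.Lm
    fun_prop
  unfold slvF
  refine Measurable.indicator ?_ ?_
  · fun_prop
  · exact measurableSet_le (by fun_prop) measurable_const

/-- `Dm` is closed, hence measurable -/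
theorem slv_Dm_meas (E : SlvE) (K : ℝ) : MeasurableSet (slvDm E K) := by
  have h1 : IsClosed {b : ℝ | |b| ≤ K} := isClosed_le continuous_abs continuous_const
  have h2 : IsClosed {b : ℝ | 1 / (32 * K ^ 2) ≤ E.E0 b} := by
    refine isClosed_le continuous_const ?_
    unfold SlvE.E0
    fun_prop
  exact (h1.inter h2).measurableSet

/-- one order connected piece of `Dm` -/
theorem slv_slice_piece (E : SlvE) (K e r s : ℝ) (hK : 1 ≤ K) (hr : 0 ≤ r) (A : Set ℝ) (hA : A.OrdConnected)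
    (hAm : MeasurableSet A) (hAD : A ⊆ slvDm E K) :
    volume {σ : ℝ | σ ∈ {x : ℝ | |x ^ 2 - E.E2 s| ≤ e} ∧ ∃ y ∈ (fun b => E.sg b s) '' A, |σ - y| ≤ r}
      ≤ ENNReal.ofReal (2 * r) + ∫⁻ b in slvDm E K, slvF E e (b, s) := by
  have hK0 : 0 < K := by linarith
  have hpos : ∀ b ∈ A, 0 < E.E0 b := fun b hb => lt_of_lt_of_le (by positivity) (hAD hb).2
  have hder : ∀ b ∈ A, HasDerivAt (fun b' => E.sg b' s) (E.N b s / (2 * E.gam b)) b :=
    fun b hb => slv_sg_deriv E b s (hpos b hb)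
  have hcont : ContinuousOn (fun b => E.sg b s) A := fun b hb => (hder b hb).continuousAt.continuousWithinAt
  have hJ : ((fun b => E.sg b s) '' A).OrdConnected := (hA.isPreconnected.image _ hcont).ordConnected
  refine (slv_thick _ {x : ℝ | |x ^ 2 - E.E2 s| ≤ e} hJ r hr).trans ?_
  rw [add_comm]
  gcongr
  -- the part of the image in `V`
  have hWm : MeasurableSet {b : ℝ | |E.psi b s| ≤ e} := by
    refine measurableSet_le ?_ measurable_const
    unfold SlvE.psi SlvE.sg SlvE.gam SlvE.E1 SlvE.E0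
    fun_prop
  have hsub : (fun b => E.sg b s) '' A ∩ {x : ℝ | |x ^ 2 - E.E2 s| ≤ e}
      ⊆ (fun b => E.sg b s) '' (A ∩ {b : ℝ | |E.psi b s| ≤ e}) := by
    rintro x ⟨⟨b, hb, rfl⟩, hx⟩
    refine ⟨b, ⟨hb, ?_⟩, rfl⟩
    show |E.psi b s| ≤ e
    unfold SlvE.psi
    rw [abs_sub_comm]
    exact hx
  refine (measure_mono hsub).trans ?_
  refine (slv_image_le _ (fun b => E.N b s / (2 * E.gam b)) _ (hAm.inter hWm) (fun b hb => hder b hb.1)).trans ?_
  have heq : Set.EqOn (fun b => ENNReal.ofReal |E.N b s / (2 * E.gam b)|) (fun b => slvF E e (b, s))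
      (A ∩ {b : ℝ | |E.psi b s| ≤ e}) := by
    intro b hb
    have hmem : ((b, s) : ℝ × ℝ) ∈ {p : ℝ × ℝ | |E.psi p.1 p.2| ≤ e} := hb.2
    have hg : 0 ≤ 2 * E.gam b := by
      unfold SlvE.gam
      positivity
    simp only [slvF]
    rw [Set.indicator_of_mem hmem, abs_div, abs_of_nonneg hg]
  rw [setLIntegral_congr_fun (hAm.inter hWm) heq]
  exact lintegral_mono_set (Set.inter_subset_left.trans hAD)

/-- **LEAF L-252-SLO-E5: the slice of the thickened exact sheet.**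
PLAN.  `slv_split E.e0 E.eu (E.ea/2)` gives `v`;  `Dm = Dm⁻ ∪ Dm⁺` (`b ≤ v`, `v ≤ b`), both order connected, hence preconnected (`Set.OrdConnected.isPreconnected`), and measurable (closed).
`f := fun b => E.sg b s` is continuous on `Dm` (`slv_sg_deriv`, `E0 > 0` on `Dm`), so `J± := f '' Dm±` is preconnected (`IsPreconnected.image`), hence order connected (`IsPreconnected.ordConnected`).
The set on the left is contained in the union over `±` of `{x ∈ V ∧ ∃ y ∈ J±, |x - y| ≤ r}`, `V := {x | |x² - E2 s| ≤ e}`:  `slv_thick`.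
`J± ∩ V = f '' (Dm± ∩ {b | |ψ b s| ≤ e})` (`|ψ| = |E2 s - f² | = |f² - E2 s|`), `slv_image_le`, and `∫_{Dm± ∩ {..}} ofReal |N/(2γ)| ≤ ∫_{Dm} slvF` (indicator; `|N/(2γ)| = |N|/(2γ)`, `γ > 0`). -/
theorem slv_slice_pos (E : SlvE) (K e r s : ℝ) (hK : 1 ≤ K) (hr : 0 ≤ r) :
    volume {σ : ℝ | |σ ^ 2 - E.E2 s| ≤ e ∧ ∃ b ∈ slvDm E K, |σ - E.sg b s| ≤ r}
      ≤ ENNReal.ofReal (4 * r) + 2 * ∫⁻ b in slvDm E K, slvF E e (b, s) := by
  obtain ⟨v, hv⟩ := slv_split E.e0 E.eu (E.ea / 2)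
  obtain ⟨hm, hp⟩ := hv (1 / (32 * K ^ 2)) K
  have hE0 : ∀ b, E.e0 + E.eu * b + E.ea / 2 * b ^ 2 = E.E0 b := by
    intro b
    unfold SlvE.E0
    ring
  have hc : Continuous fun b : ℝ => E.e0 + E.eu * b + E.ea / 2 * b ^ 2 := by fun_prop
  have hmm : MeasurableSet {b : ℝ | b ≤ v ∧ |b| ≤ K ∧ 1 / (32 * K ^ 2) ≤ E.e0 + E.eu * b + E.ea / 2 * b ^ 2} :=
    ((isClosed_le continuous_id continuous_const).inter
      ((isClosed_le continuous_abs continuous_const).inter (isClosed_le continuous_const hc))).measurableSet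
  have hpm : MeasurableSet {b : ℝ | v ≤ b ∧ |b| ≤ K ∧ 1 / (32 * K ^ 2) ≤ E.e0 + E.eu * b + E.ea / 2 * b ^ 2} :=
    ((isClosed_le continuous_const continuous_id).inter
      ((isClosed_le continuous_abs continuous_const).inter (isClosed_le continuous_const hc))).measurableSet
  have h1 := slv_slice_piece E K e r s hK hr _ hm hmm (fun b hb => ⟨hb.2.1, (hE0 b) ▸ hb.2.2⟩)
  have h2 := slv_slice_piece E K e r s hK hr _ hp hpm (fun b hb => ⟨hb.2.1, (hE0 b) ▸ hb.2.2⟩)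
  refine (measure_mono ?_).trans ((measure_union_le _ _).trans (add_le_add h1 h2)) |>.trans (le_of_eq ?_)
  · rintro σ ⟨hσ, b, hb, hbσ⟩
    rcases le_total b v with hbv | hbv
    · exact Or.inl ⟨hσ, _, ⟨b, ⟨hbv, hb.1, (hE0 b).symm ▸ hb.2⟩, rfl⟩, hbσ⟩
    · exact Or.inr ⟨hσ, _, ⟨b, ⟨hbv, hb.1, (hE0 b).symm ▸ hb.2⟩, rfl⟩, hbσ⟩
  · have e4 : ENNReal.ofReal (4 * r) = ENNReal.ofReal (2 * r) + ENNReal.ofReal (2 * r) := by
      rw [← ENNReal.ofReal_add (by positivity) (by positivity)]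
      congr 1
      ring
    rw [e4, two_mul]
    ring

/-- **LEAF L-252-SLO-E6: the slice of the edge set.**
PLAN.  Let `T₊` be the set of `slv_slice_pos` with `r = 27 K² e` (if `e < 0` the slice is empty).   A `σ` of the slice with `g > 0` lies in `T₊` (`slv_edge_close`);  with `g < 0` apply this to `(-g, -σ)`: `-σ ∈ T₊`.
`volume {σ | -σ ∈ T₊} = volume T₊` (`Measure.measure_preimage_neg` / `measure_neg`).   `4 · 27 · 2 = 216`. -/
theorem slv_edge_slice (E : SlvE) (K e s : ℝ) (hK : 1 ≤ K) (he : e ≤ 1 / (32 * K ^ 2)) :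
    volume {σ : ℝ | (s, σ) ∈ slvEdge E K e}
      ≤ ENNReal.ofReal (216 * K ^ 2 * e) + 4 * ∫⁻ b in slvDm E K, slvF E e (b, s) := by
  by_cases he0 : 0 ≤ e
  swap
  · have : {σ : ℝ | (s, σ) ∈ slvEdge E K e} = ∅ := by
      ext σ
      simp only [Set.mem_ofPred_eq, Set.mem_empty_iff_false, iff_false]
      rintro ⟨-, -, b, g, -, -, -, h, -⟩
      exact he0 ((abs_nonneg _).trans h)
    rw [this, measure_empty]
    exact zero_le
  obtain ⟨T, hT⟩ : ∃ T : Set ℝ, T = {σ : ℝ | |σ ^ 2 - E.E2 s| ≤ e ∧ ∃ b ∈ slvDm E K, |σ - E.sg b s| ≤ 27 * K ^ 2 * e} := ⟨_, rfl⟩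
  have hTv : volume T ≤ ENNReal.ofReal (4 * (27 * K ^ 2 * e)) + 2 * ∫⁻ b in slvDm E K, slvF E e (b, s) := by
    rw [hT]
    exact slv_slice_pos E K e (27 * K ^ 2 * e) s hK (by positivity)
  have hsub : {σ : ℝ | (s, σ) ∈ slvEdge E K e} ⊆ T ∪ (Neg.neg ⁻¹' T) := by
    rintro σ ⟨-, h2, b, g, h3, h4, -, h6, h7, h8⟩
    simp only at h2 h7 h8
    rcases le_total 0 g with hg | hg
    · left
      rw [abs_of_nonneg hg] at h4
      obtain ⟨hb, hc⟩ := slv_edge_close E K e b g s σ hK he h3 h4 h2 h6 h7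
      rw [hT]
      exact ⟨h8, b, hb, hc⟩
    · right
      rw [abs_of_nonpos hg] at h4
      obtain ⟨hb, hc⟩ := slv_edge_close E K e b (-g) s (-σ) hK he h3 h4 (by rwa [abs_neg])
        (by rwa [neg_sq]) (by rwa [show 2 * -g * -σ = 2 * g * σ by ring])
      rw [Set.mem_preimage, hT]
      exact ⟨by rwa [neg_sq], b, hb, hc⟩
  refine (measure_mono hsub).trans ((measure_union_le _ _).trans ?_)
  rw [Measure.measure_preimage_neg]
  refine (add_le_add hTv hTv).trans (le_of_eq ?_)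
  obtain ⟨I, hI⟩ : ∃ I : ℝ≥0∞, I = ∫⁻ b in slvDm E K, slvF E e (b, s) := ⟨_, rfl⟩
  rw [← hI]
  have e1 : ENNReal.ofReal (216 * K ^ 2 * e) = ENNReal.ofReal (4 * (27 * K ^ 2 * e)) + ENNReal.ofReal (4 * (27 * K ^ 2 * e)) := by
    rw [← ENNReal.ofReal_add (by positivity) (by positivity)]
    congr 1
    ring
  rw [e1]
  have e2 : (4 : ℝ≥0∞) * I = 2 * I + 2 * I := by
    rw [← add_mul]
    norm_num
  rw [e2]
  abel

/-- the inner integral of `slv_edge_int` at a fixed admissible base point -/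
theorem slv_edge_int_aux (E : SlvE) (K e b : ℝ) (hK : 1 ≤ K) (hb : b ∈ slvDm E K) :
    ∫⁻ s : ℝ, slvF E e (b, s) ≤ ENNReal.ofReal (3 * K) * ENNReal.ofReal (4 * e) := by
  have hK0 : (0 : ℝ) < K := by linarith
  have hE0 : 0 < E.E0 b := lt_of_lt_of_le (by positivity) hb.2
  obtain ⟨A, B, C, hABC⟩ := slv_psi_quad E b hE0
  have hγ := slv_gam_ge E K b hK hb
  have hγ0 : 0 < E.gam b := lt_of_lt_of_le (by positivity) hγ
  have hinv : 1 / (2 * E.gam b) ≤ 3 * K := by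
    rw [div_le_iff₀ (by positivity)]
    have h1 : 1 ≤ 6 * K * E.gam b := by
      have := (div_le_iff₀ (by positivity : (0:ℝ) < 6 * K)).mp hγ
      linarith
    linarith
  have hSm : MeasurableSet {s : ℝ | |A * s ^ 2 + B * s + C| ≤ e} := by
    have hc : Continuous fun ν : ℝ => |A * ν ^ 2 + B * ν + C| := by fun_prop
    exact (isClosed_le hc continuous_const).measurableSet
  have hpt : ∀ s : ℝ, slvF E e (b, s) ≤
      ({s : ℝ | |A * s ^ 2 + B * s + C| ≤ e}).indicator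
        (fun s => ENNReal.ofReal (3 * K) * ENNReal.ofReal |2 * A * s + B|) s := by
    intro s
    unfold slvF
    by_cases hs : |E.psi b s| ≤ e
    · have hs' : s ∈ {s : ℝ | |A * s ^ 2 + B * s + C| ≤ e} := by
        show |A * s ^ 2 + B * s + C| ≤ e
        rw [← (hABC s).1]; exact hs
      rw [Set.indicator_of_mem (show (b, s) ∈ {p : ℝ × ℝ | |E.psi p.1 p.2| ≤ e} from hs), Set.indicator_of_mem hs',
        ← ENNReal.ofReal_mul (by positivity)]
      apply ENNReal.ofReal_le_ofReal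
      show |E.N b s| / (2 * E.gam b) ≤ _
      rw [(hABC s).2, div_eq_mul_one_div, mul_comm]
      exact mul_le_mul_of_nonneg_right hinv (abs_nonneg _)
    · rw [Set.indicator_of_notMem (show (b, s) ∉ {p : ℝ × ℝ | |E.psi p.1 p.2| ≤ e} from hs)]
      exact zero_le
  refine (lintegral_mono hpt).trans ?_
  rw [lintegral_indicator hSm, lintegral_const_mul' _ _ ENNReal.ofReal_ne_top]
  gcongr
  exact slv_quad_coarea A B C e

/-- **LEAF L-252-SLO-E7: Tonelli and Lemma M.**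
PLAN.  `lintegral_lintegral_swap` (`slv_F_meas`, restricted measures; or write the restriction as an indicator).   For fixed `b ∈ Dm`:  `slv_psi_quad` gives `A B C`;
`∫⁻ s, slvF E e (b, s) = ∫⁻ s in {s | |A s² + B s + C| ≤ e}, ofReal (|2 A s + B|/(2γ)) ≤ ofReal (3K) * ofReal (4e)` (`slv_quad_coarea`, `1/(2γ) ≤ 3K` by `slv_gam_ge`, `ENNReal.ofReal_mul`, `lintegral_const_mul`).
`volume Dm ≤ volume (Icc (-K) K) = 2K`.   `2K · 3K · 4e = 24 K² e`. -/
theorem slv_edge_int (E : SlvE) (K e : ℝ) (hK : 1 ≤ K) (he : 0 ≤ e) :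
    ∫⁻ s : ℝ, ∫⁻ b in slvDm E K, slvF E e (b, s) ≤ ENNReal.ofReal (24 * K ^ 2 * e) := by
  have hK0 : (0 : ℝ) < K := by linarith
  have hm : Measurable (Function.uncurry fun (s b : ℝ) => slvF E e (b, s)) :=
    (slv_F_meas E e).comp measurable_swap
  rw [lintegral_lintegral_swap hm.aemeasurable]
  have h1 : ∫⁻ b in slvDm E K, ∫⁻ s : ℝ, slvF E e (b, s)
      ≤ ∫⁻ _b in slvDm E K, ENNReal.ofReal (3 * K) * ENNReal.ofReal (4 * e) :=
    setLIntegral_mono' (slv_Dm_meas E K) fun b hb => slv_edge_int_aux E K e b hK hb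
  refine h1.trans ?_
  rw [setLIntegral_const]
  have h2 : volume (slvDm E K) ≤ ENNReal.ofReal (2 * K) := by
    have hsub : slvDm E K ⊆ Set.Icc (-K) K := fun b hb => abs_le.mp hb.1
    refine (measure_mono hsub).trans ?_
    rw [Real.volume_Icc]
    apply ENNReal.ofReal_le_ofReal
    linarith
  calc ENNReal.ofReal (3 * K) * ENNReal.ofReal (4 * e) * volume (slvDm E K)
      ≤ ENNReal.ofReal (3 * K) * ENNReal.ofReal (4 * e) * ENNReal.ofReal (2 * K) := by gcongr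
    _ = ENNReal.ofReal (24 * K ^ 2 * e) := by
        rw [← ENNReal.ofReal_mul (by positivity), ← ENNReal.ofReal_mul (by positivity)]
        congr 1
        ring

/-- **LEAF L-252-SLO-E8: the planar edge set is compact.**
PLAN.  It is the image under `x ↦ (x.1, x.2.1)` of `{x : ℝ × ℝ × ℝ × ℝ | …}` (`x = (s, σ, b, g)`), which is closed (`isClosed_le`, `IsClosed.inter`, all functions are polynomials or `|·|`: `fun_prop` after unfolding `SlvE.E0 …`)
and contained in `Icc (-2K) (2K) ×ˢ Icc (-1) 1 ×ˢ Icc (-K) K ×ˢ Icc (-2K) (2K)` (compact: `isCompact_Icc.prod`);  `IsCompact.of_isClosed_subset`, `IsCompact.image`. -/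
theorem slv_edge_compact (E : SlvE) (K e : ℝ) : IsCompact (slvEdge E K e) := by
  have hcl : IsClosed {x : ℝ × ℝ × ℝ × ℝ | |x.1| ≤ 2 * K ∧ |x.2.1| ≤ 1 ∧ |x.2.2.1| ≤ K ∧ 1 / (4 * K) ≤ |x.2.2.2| ∧ |x.2.2.2| ≤ 2 * K ∧
      |x.2.2.2 ^ 2 - E.E0 x.2.2.1| ≤ e ∧ |2 * x.2.2.2 * x.2.1 - E.E1 x.2.2.1 x.1| ≤ e ∧ |x.2.1 ^ 2 - E.E2 x.1| ≤ e} := by
    unfold SlvE.E0 SlvE.E1 SlvE.E2
    simp only [Set.ofPred_and]
    repeat' apply IsClosed.inter
    all_goals exact isClosed_le (by fun_prop) (by fun_prop)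
  have hcp : IsCompact {x : ℝ × ℝ × ℝ × ℝ | |x.1| ≤ 2 * K ∧ |x.2.1| ≤ 1 ∧ |x.2.2.1| ≤ K ∧ 1 / (4 * K) ≤ |x.2.2.2| ∧ |x.2.2.2| ≤ 2 * K ∧
      |x.2.2.2 ^ 2 - E.E0 x.2.2.1| ≤ e ∧ |2 * x.2.2.2 * x.2.1 - E.E1 x.2.2.1 x.1| ≤ e ∧ |x.2.1 ^ 2 - E.E2 x.1| ≤ e} := by
    refine IsCompact.of_isClosed_subset
      (isCompact_Icc.prod (isCompact_Icc.prod (isCompact_Icc.prod isCompact_Icc)) :
        IsCompact (Set.Icc (-(2 * K)) (2 * K) ×ˢ (Set.Icc (-1 : ℝ) 1 ×ˢ (Set.Icc (-K) K ×ˢ Set.Icc (-(2 * K)) (2 * K))))) hcl ?_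
    rintro x ⟨h1, h2, h3, -, h5, -⟩
    exact ⟨abs_le.1 h1, abs_le.1 h2, abs_le.1 h3, abs_le.1 h5⟩
  have him := hcp.image (f := fun x : ℝ × ℝ × ℝ × ℝ => (x.1, x.2.1)) (by fun_prop)
  convert him using 1
  ext p
  constructor
  · rintro ⟨h1, h2, b, g, h3, h4, h5, h6, h7, h8⟩
    exact ⟨(p.1, p.2, b, g), ⟨h1, h2, h3, h4, h5, h6, h7, h8⟩, rfl⟩
  · rintro ⟨x, ⟨h1, h2, h3, h4, h5, h6, h7, h8⟩, rfl⟩
    exact ⟨h1, h2, x.2.2.1, x.2.2.2, h3, h4, h5, h6, h7, h8⟩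

/-- **the planar edge lemma** (assembly) -/
theorem slv_edge_planar (E : SlvE) (K e : ℝ) (hK : 1 ≤ K) (he0 : 0 ≤ e) (he : e ≤ 1 / (32 * K ^ 2)) :
    volume (slvEdge E K e) ≤ ENNReal.ofReal (1000 * K ^ 3 * e) := by
  have hm : MeasurableSet (slvEdge E K e) := (slv_edge_compact E K e).isClosed.measurableSet
  have hK0 : (0 : ℝ) ≤ K := by linarith
  rw [Measure.volume_eq_prod, Measure.prod_apply hm]
  -- the slice vanishes off `[-2K, 2K]`
  have hle : ∀ s : ℝ, volume (Prod.mk s ⁻¹' slvEdge E K e) ≤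
      (Set.Icc (-(2 * K)) (2 * K)).indicator (fun _ => ENNReal.ofReal (216 * K ^ 2 * e)) s
        + 4 * ∫⁻ b in slvDm E K, slvF E e (b, s) := by
    intro s
    by_cases hs : s ∈ Set.Icc (-(2 * K)) (2 * K)
    · rw [Set.indicator_of_mem hs]
      exact slv_edge_slice E K e s hK he
    · have : Prod.mk s ⁻¹' slvEdge E K e = ∅ := by
        ext σ
        simp only [Set.mem_preimage, Set.mem_empty_iff_false, iff_false]
        intro h
        exact hs (abs_le.mp h.1)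
      rw [this, measure_empty]
      exact zero_le
  refine (lintegral_mono hle).trans ?_
  have hmeas : Measurable fun s : ℝ => ∫⁻ b in slvDm E K, slvF E e (b, s) := by
    have : Measurable (Function.uncurry fun (s b : ℝ) => slvF E e (b, s)) :=
      (slv_F_meas E e).comp measurable_swap
    exact this.lintegral_prod_right'
  rw [lintegral_add_left (measurable_const.indicator measurableSet_Icc), lintegral_const_mul _ hmeas,
    lintegral_indicator measurableSet_Icc, setLIntegral_const, Real.volume_Icc]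
  have h2 := slv_edge_int E K e hK he0
  calc ENNReal.ofReal (216 * K ^ 2 * e) * ENNReal.ofReal (2 * K - -(2 * K)) + 4 * ∫⁻ s : ℝ, ∫⁻ b in slvDm E K, slvF E e (b, s)
      ≤ ENNReal.ofReal (216 * K ^ 2 * e) * ENNReal.ofReal (2 * K - -(2 * K)) + 4 * ENNReal.ofReal (24 * K ^ 2 * e) := by
        gcongr
    _ = ENNReal.ofReal (864 * K ^ 3 * e + 96 * K ^ 2 * e) := by
        rw [← ENNReal.ofReal_mul (by positivity), show (4 : ℝ≥0∞) = ENNReal.ofReal 4 by simp,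
          ← ENNReal.ofReal_mul (by norm_num), ← ENNReal.ofReal_add (mul_nonneg (by positivity) (by linarith)) (by positivity)]
        congr 1
        ring
    _ ≤ ENNReal.ofReal (1000 * K ^ 3 * e) := by
        apply ENNReal.ofReal_le_ofReal
        have : K ^ 2 * e ≤ K ^ 3 * e := by
          have : K ^ 2 ≤ K ^ 3 := by nlinarith [sq_nonneg K]
          exact mul_le_mul_of_nonneg_right this he0
        have h3 : 0 ≤ K ^ 3 * e := by positivity
        nlinarith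

/-- **LEAF L-252-SLO-E9: the edge sets in `ℝ³` are compact.**   As `slv_edge_compact`, `x = (s₁, s₂, σ, b, g)`. -/
theorem slv_ed1_compact (D : SlvD) (K β e : ℝ) : IsCompact (slvEd1 D K β e) := by
  have hcl : IsClosed {x : ℝ × ℝ × ℝ × ℝ × ℝ | |x.1| ≤ 2 * K ∧ |x.2.1| ≤ 2 * K ∧ |x.2.2.1| ≤ 1 ∧ |x.2.2.2.1| ≤ K ∧
      1 / (4 * K) ≤ |x.2.2.2.2| ∧ |x.2.2.2.2| ≤ 2 * K ∧
      |x.2.2.2.2 ^ 2 - D.D0 β x.2.2.2.1| ≤ e ∧ |2 * x.2.2.2.2 * x.2.2.1 - D.D1 β x.2.2.2.1 x.1 x.2.1| ≤ e ∧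
      |x.2.2.1 ^ 2 - D.D2 x.1 x.2.1| ≤ e} := by
    unfold SlvD.D0 SlvD.D1 SlvD.D2 SlvD.G1 SlvD.G2
    simp only [Set.ofPred_and]
    repeat' apply IsClosed.inter
    all_goals exact isClosed_le (by fun_prop) (by fun_prop)
  have hcp : IsCompact {x : ℝ × ℝ × ℝ × ℝ × ℝ | |x.1| ≤ 2 * K ∧ |x.2.1| ≤ 2 * K ∧ |x.2.2.1| ≤ 1 ∧ |x.2.2.2.1| ≤ K ∧
      1 / (4 * K) ≤ |x.2.2.2.2| ∧ |x.2.2.2.2| ≤ 2 * K ∧
      |x.2.2.2.2 ^ 2 - D.D0 β x.2.2.2.1| ≤ e ∧ |2 * x.2.2.2.2 * x.2.2.1 - D.D1 β x.2.2.2.1 x.1 x.2.1| ≤ e ∧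
      |x.2.2.1 ^ 2 - D.D2 x.1 x.2.1| ≤ e} := by
    refine IsCompact.of_isClosed_subset
      (isCompact_Icc.prod (isCompact_Icc.prod (isCompact_Icc.prod (isCompact_Icc.prod isCompact_Icc))) :
        IsCompact (Set.Icc (-(2 * K)) (2 * K) ×ˢ (Set.Icc (-(2 * K)) (2 * K) ×ˢ (Set.Icc (-1 : ℝ) 1 ×ˢ
          (Set.Icc (-K) K ×ˢ Set.Icc (-(2 * K)) (2 * K)))))) hcl ?_
    rintro x ⟨h1, h2, h3, h4, -, h5, -⟩
    exact ⟨abs_le.1 h1, abs_le.1 h2, abs_le.1 h3, abs_le.1 h4, abs_le.1 h5⟩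
  have him := hcp.image (f := fun x : ℝ × ℝ × ℝ × ℝ × ℝ => (x.1, x.2.1, x.2.2.1)) (by fun_prop)
  convert him using 1
  ext p
  constructor
  · rintro ⟨h1, h2, h3, b, g, h4, h5, h6, h7, h8, h9⟩
    exact ⟨(p.1, p.2.1, p.2.2, b, g), ⟨h1, h2, h3, h4, h5, h6, h7, h8, h9⟩, rfl⟩
  · rintro ⟨x, ⟨h1, h2, h3, h4, h5, h6, h7, h8, h9⟩, rfl⟩
    exact ⟨h1, h2, h3, x.2.2.2.1, x.2.2.2.2, h4, h5, h6, h7, h8, h9⟩

/-- the slices of `slvEd1` at fixed `s₁` are planar edge sets -/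
theorem slv_ed1_slice (D : SlvD) (K β e s1 : ℝ) :
    {q : ℝ × ℝ | (s1, q) ∈ slvEd1 D K β e} ⊆ slvEdge (D.side β s1) K e := by
  rintro q ⟨-, h2, h3, b, g, hb, hg, hg', h4, h5, h6⟩
  refine ⟨h2, h3, b, g, hb, hg, hg', ?_, ?_, ?_⟩
  · rw [slv_side_E0]; exact h4
  · rw [slv_side_E1]; exact h5
  · rw [slv_side_E2]; exact h6

/-- **the edge lemma, side `b₁ = β`** -/
theorem slv_ed1_vol (D : SlvD) (K β e : ℝ) (hK : 1 ≤ K) (he0 : 0 ≤ e) (he : e ≤ 1 / (32 * K ^ 2)) :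
    volume (slvEd1 D K β e) ≤ ENNReal.ofReal (4000 * K ^ 4 * e) := by
  have hm : MeasurableSet (slvEd1 D K β e) := (slv_ed1_compact D K β e).isClosed.measurableSet
  have h := slv_prod_le (volume : Measure ℝ) (volume : Measure (ℝ × ℝ)) (slvEd1 D K β e) hm (Set.Icc (-(2 * K)) (2 * K))
    (ENNReal.ofReal (1000 * K ^ 3 * e)) (fun p hp => abs_le.mp hp.1)
    (fun a => (measure_mono (slv_ed1_slice D K β e a)).trans (slv_edge_planar _ K e hK he0 he))
  rw [← Measure.volume_eq_prod] at h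
  refine h.trans (le_of_eq ?_)
  rw [Real.volume_Icc, ← ENNReal.ofReal_mul (by linarith)]
  congr 1
  ring

/-- **the edge lemma, side `b₂ = β`** -/
theorem slv_ed2_vol (D : SlvD) (K β e : ℝ) (hK : 1 ≤ K) (he0 : 0 ≤ e) (he : e ≤ 1 / (32 * K ^ 2)) :
    volume (slvEd2 D K β e) ≤ ENNReal.ofReal (4000 * K ^ 4 * e) := by
  have h : slvEd2 D K β e = {p : ℝ × ℝ × ℝ | (p.2.1, p.1, p.2.2) ∈ slvEd1 D.swap K β e} := by
    ext p
    simp only [slvEd2, slvEd1, Set.mem_setOf_eq, slv_swap_D0, slv_swap_D1, slv_swap_D2]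
    tauto
  rw [h, slv_swap12]
  exact slv_ed1_vol D.swap K β e hK he0 he

end Claimed.Agent.R252
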