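-- KEEP
import Claimed.Agent.R252.Slope.EdgeContract

/-!
# ROW 252, BOX 7 (T2, slope volume), file 4: THE NORMAL FORM THEOREM `slv_nf`.   CONTRACT      (architect helper17; prefix `slv_`)

PAPER-FREE, Mathlib only.   Every `sorry` is a leaf `L-252-SLO-N*`.   STATEMENTS ARE FROZEN (defects: one line to helper17).   Prove IN PLACE.

EXIT:  `slv_nf : volume (slvSig D K ε) ≤ ofReal (2·10⁶ K⁷ ε (1 + log (1 + 1/ε)))` for EVERY `D : SlvD`, `K ≥ 1`, `ε > 0`   (outer measure; `slvSig` is not claimed to be measurable).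

Structure.  `slvSig ⊆ slvCo` (three nodes).   `r = 8Kε`, `κ = 1/(2K)`.   `|σ| ≥ κ`: shell over the box.   `|σ| ≤ 4r`: tiny.   `ς < |σ| ≤ 2ς`, `ς = κ/2^{j+1}`, `j < J`:  `slv_mid_point`:
the point lies in `Grad1 ∪ Grad2` (shell with `|∂ᵢD2| ≥ ς/(16K²)`), or in the shell over a FIXED strip of width `~ K²ς`, or in one of the four edge sets (which do not depend on `ς`).
-/

set_option autoImplicit false

namespace Claimed.Agent.R252

open MeasureTheory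
open scoped ENNReal

/-! ## 1. Coefficient form -/

/-- **LEAF L-252-SLO-N1: three nodes.**
PLAN.  `t = 0`, `t = 1` give the bounds of `b`, `g0`, `s`, `σ` (`abs_le`, `linarith`).   By `slv_ev_line`, `(g0 + tσ)² - Δ = (σ² - D2) t² + (2 g0 σ - D1) t + (g0² - D0)`: `rmz_quad_coeff`.   `|g0 + tσ| ≤ |g0| + |σ|` for `t ∈ [0,1]`. -/
theorem slv_sig_sub_co (D : SlvD) (K ε : ℝ) : slvSig D K ε ⊆ slvCo D K ε := by
  rintro ⟨s1, s2, σ⟩ ⟨b1, b2, g0, hall, t₁, ht₁, hlow⟩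
  simp only at hall hlow
  have h0 := hall 0 ⟨le_rfl, zero_le_one⟩
  have h1 := hall 1 ⟨zero_le_one, le_rfl⟩
  simp only [zero_mul, add_zero, one_mul] at h0 h1
  obtain ⟨a1, a2, a3, -⟩ := h0
  obtain ⟨c1, c2, c3, -⟩ := h1
  have hq := rmz_quad_coeff (σ ^ 2 - D.D2 s1 s2) (2 * g0 * σ - D.D1 b1 b2 s1 s2) (g0 ^ 2 - D.D0 b1 b2) ε (by
    intro t ht
    have := (hall t ht).2.2.2
    rw [slv_ev_line] at this
    have e : (σ ^ 2 - D.D2 s1 s2) * t ^ 2 + (2 * g0 * σ - D.D1 b1 b2 s1 s2) * t + (g0 ^ 2 - D.D0 b1 b2)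
        = (g0 + t * σ) ^ 2 - (D.D2 s1 s2 * t ^ 2 + D.D1 b1 b2 s1 s2 * t + D.D0 b1 b2) := by ring
    rw [e]
    exact this)
  rw [abs_le] at a1 a2 a3 c1 c2 c3
  refine ⟨abs_le.mpr ⟨by linarith, by linarith⟩, abs_le.mpr ⟨by linarith, by linarith⟩, abs_le.mpr ⟨by linarith, by linarith⟩,
    b1, b2, g0, abs_le.mpr a1, abs_le.mpr a2, abs_le.mpr a3, ?_, hq.2.2, hq.2.1, hq.1⟩
  refine hlow.trans ((abs_add_le _ _).trans ?_)
  have : |t₁ * σ| ≤ |σ| := by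
    rw [abs_mul, abs_of_nonneg ht₁.1]
    exact mul_le_of_le_one_left (abs_nonneg _) ht₁.2
  simpa using this

/-- the trivial bound -/
theorem slv_co_box (D : SlvD) (K ε : ℝ) (hK : 0 ≤ K) : volume (slvCo D K ε) ≤ ENNReal.ofReal (64 * K ^ 3) := by
  have hsub : slvCo D K ε ⊆ Set.Icc (-(2 * K)) (2 * K) ×ˢ (Set.Icc (-(2 * K)) (2 * K) ×ˢ Set.Icc (-(2 * K)) (2 * K)) := by
    rintro p ⟨h1, h2, h3, -⟩
    exact ⟨abs_le.mp h1, abs_le.mp h2, abs_le.mp h3⟩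
  refine (measure_mono hsub).trans (le_of_eq ?_)
  rw [Measure.volume_eq_prod, Measure.prod_prod, Measure.volume_eq_prod, Measure.prod_prod, Real.volume_Icc,
    ← ENNReal.ofReal_mul (by linarith), ← ENNReal.ofReal_mul (by linarith)]
  congr 1
  ring

/-! ## 2. Volumes of the pieces -/

/-- **LEAF L-252-SLO-N2: shell over a closed set of base slopes.**   The set is closed (preimage of `B` under a continuous map, `isClosed_le`), `slv_vol3_thd` with `c = ofReal (2δ/m)`, fibres by `slv_T`. -/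
theorem slv_shell_vol (D : SlvD) (B : Set (ℝ × ℝ)) (hB : IsClosed B) (m δ : ℝ) (hm : 0 < m) (hδ : 0 ≤ δ) :
    volume (slvShell D B m δ) ≤ volume B * ENNReal.ofReal (2 * δ / m) := by
  have hcl : IsClosed (slvShell D B m δ) := by
    have h1 : IsClosed {p : ℝ × ℝ × ℝ | (p.1, p.2.1) ∈ B} :=
      hB.preimage (by fun_prop : Continuous fun p : ℝ × ℝ × ℝ => (p.1, p.2.1))
    have h2 : IsClosed {p : ℝ × ℝ × ℝ | m ≤ |p.2.2|} := isClosed_le continuous_const (by fun_prop)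
    have h3 : IsClosed {p : ℝ × ℝ × ℝ | |p.2.2 ^ 2 - D.D2 p.1 p.2.1| ≤ δ} := by
      refine isClosed_le ?_ continuous_const
      unfold SlvD.D2
      fun_prop
    exact h1.inter (h2.inter h3)
  refine slv_vol3_thd _ hcl.measurableSet B _ (fun p hp => hp.1) (fun x y => ?_)
  refine (measure_mono ?_).trans (slv_T (D.D2 x y) m δ hm hδ)
  intro z hz
  exact ⟨hz.2.1, hz.2.2⟩

/-- **LEAF L-252-SLO-N3.**   A product of three intervals. -/
theorem slv_tiny_vol (K ρ : ℝ) (hK : 0 ≤ K) (hρ : 0 ≤ ρ) : volume (slvTiny K ρ) ≤ ENNReal.ofReal (32 * K ^ 2 * ρ) := by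
  have hsub : slvTiny K ρ ⊆ Set.Icc (-(2 * K)) (2 * K) ×ˢ (Set.Icc (-(2 * K)) (2 * K) ×ˢ Set.Icc (-ρ) ρ) := by
    rintro p ⟨h1, h2, h3⟩
    exact ⟨abs_le.mp h1, abs_le.mp h2, abs_le.mp h3⟩
  refine (measure_mono hsub).trans (le_of_eq ?_)
  rw [Measure.volume_eq_prod, Measure.prod_prod, Measure.volume_eq_prod, Measure.prod_prod, Real.volume_Icc, Real.volume_Icc,
    ← ENNReal.ofReal_mul (by linarith), ← ENNReal.ofReal_mul (by linarith)]
  congr 1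
  ring

/-- **LEAF L-252-SLO-N4: the shell where `∂₁D2` is not small.**
PLAN.  Closed, hence measurable.   `slv_prod_le'` (`μ = volume` on `ℝ`, `ν = volume` on `ℝ × ℝ`, `Measure.volume_eq_prod`) with `B = {q | |q.1| ≤ 2K ∧ |q.2| ≤ 2ς}` (`slv_rect`).
Fibre at `(s₂, σ)`:  `D2 x s₂ - σ² = (a11/2) x² + (v1 + a12 s₂) x + C`, derivative `G1 x s₂`:  `rmz_quad_sublevel (a11/2) (v1 + a12 s₂) C δ γ`. -/
theorem slv_grad1_vol (D : SlvD) (K ς γ δ : ℝ) (hK : 0 ≤ K) (hς : 0 ≤ ς) (hγ : 0 < γ) (hδ : 0 ≤ δ) :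
    volume (slvGrad1 D K ς γ δ) ≤ ENNReal.ofReal (64 * K * ς * δ / γ) := by
  have hcl : IsClosed (slvGrad1 D K ς γ δ) := by
    have h1 : IsClosed {p : ℝ × ℝ × ℝ | |p.2.1| ≤ 2 * K} := isClosed_le (by fun_prop) continuous_const
    have h2 : IsClosed {p : ℝ × ℝ × ℝ | |p.2.2| ≤ 2 * ς} := isClosed_le (by fun_prop) continuous_const
    have h3 : IsClosed {p : ℝ × ℝ × ℝ | γ ≤ |D.G1 p.1 p.2.1|} := by
      refine isClosed_le continuous_const ?_
      unfold SlvD.G1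
      fun_prop
    have h4 : IsClosed {p : ℝ × ℝ × ℝ | |p.2.2 ^ 2 - D.D2 p.1 p.2.1| ≤ δ} := by
      refine isClosed_le ?_ continuous_const
      unfold SlvD.D2
      fun_prop
    exact h1.inter (h2.inter (h3.inter h4))
  have h := slv_prod_le' (volume : Measure ℝ) (volume : Measure (ℝ × ℝ)) (slvGrad1 D K ς γ δ) hcl.measurableSet
    {q : ℝ × ℝ | |q.1| ≤ 2 * K ∧ |q.2| ≤ 2 * ς} (ENNReal.ofReal (4 * δ / γ)) (fun p hp => ⟨hp.1, hp.2.1⟩) (by
      rintro ⟨s2, σ⟩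
      refine (measure_mono ?_).trans
        (rmz_quad_sublevel (D.a11 / 2) (D.v1 + D.a12 * s2) (D.dtt / 2 + D.v2 * s2 + D.a22 * s2 ^ 2 / 2 - σ ^ 2) δ γ hδ hγ)
      rintro x ⟨-, -, h3, h4⟩
      simp only at h3 h4
      refine ⟨?_, ?_⟩
      · have e : D.a11 / 2 * x ^ 2 + (D.v1 + D.a12 * s2) * x + (D.dtt / 2 + D.v2 * s2 + D.a22 * s2 ^ 2 / 2 - σ ^ 2)
            = -(σ ^ 2 - D.D2 x s2) := by
          simp only [SlvD.D2]
          ring
        rw [e, abs_neg]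
        exact h4
      · have e : 2 * (D.a11 / 2) * x + (D.v1 + D.a12 * s2) = D.G1 x s2 := by
          simp only [SlvD.G1]
          ring
        rw [e]
        exact h3)
  rw [← Measure.volume_eq_prod] at h
  refine h.trans (le_of_eq ?_)
  rw [slv_rect, ← ENNReal.ofReal_mul (by positivity), ← ENNReal.ofReal_mul (by positivity)]
  congr 1
  field_simp
  ring

theorem slv_grad2_vol (D : SlvD) (K ς γ δ : ℝ) (hK : 0 ≤ K) (hς : 0 ≤ ς) (hγ : 0 < γ) (hδ : 0 ≤ δ) :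
    volume (slvGrad2 D K ς γ δ) ≤ ENNReal.ofReal (64 * K * ς * δ / γ) := by
  have h : slvGrad2 D K ς γ δ = {p : ℝ × ℝ × ℝ | (p.2.1, p.1, p.2.2) ∈ slvGrad1 D.swap K ς γ δ} := by
    ext p
    simp only [slvGrad2, slvGrad1, Set.mem_setOf_eq, slv_swap_G1, slv_swap_D2]
  rw [h, slv_swap12]
  exact slv_grad1_vol D.swap K ς γ δ hK hς hγ hδ

/-- the box and the strips are closed -/
theorem slv_box_closed (K : ℝ) : IsClosed (slvBox K) :=
  (isClosed_le (continuous_abs.comp continuous_fst) continuous_const).inter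
    (isClosed_le (continuous_abs.comp continuous_snd) continuous_const)

theorem slv_strip_closed (K n1 n2 c ρ : ℝ) : IsClosed (slvStrip K n1 n2 c ρ) := by
  have h3 : IsClosed {s : ℝ × ℝ | |n1 * s.1 + n2 * s.2 + c| ≤ ρ * (|n1| + |n2|)} :=
    isClosed_le (by fun_prop) continuous_const
  exact (isClosed_le (continuous_abs.comp continuous_fst) continuous_const).inter
    ((isClosed_le (continuous_abs.comp continuous_snd) continuous_const).inter h3)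

/-! ## 3. The pointwise analysis -/

theorem slv_mp_deriv_quad (A B C x : ℝ) : HasDerivAt (fun t : ℝ => A * t ^ 2 + B * t + C) (2 * A * x + B) x := by
  have h := (((hasDerivAt_pow 2 x).const_mul A).add ((hasDerivAt_id x).const_mul B)).add_const C
  have h' : HasDerivAt (fun t : ℝ => A * t ^ 2 + B * t + C) (A * (((2 : ℕ) : ℝ) * x ^ (2 - 1)) + B * 1) x := h
  exact h'.congr_deriv (by norm_num; ring)

theorem slv_mp_D1_dx (D : SlvD) (x y s1 s2 : ℝ) : HasDerivAt (fun x' => D.D1 x' y s1 s2) (D.G1 s1 s2) x := by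
  have h := slv_mp_deriv_quad 0 (D.G1 s1 s2) (D.dt + D.u1 * s1 + D.u2 * s2 + y * D.G2 s1 s2) x
  have hf : (fun x' => D.D1 x' y s1 s2)
      = fun t : ℝ => 0 * t ^ 2 + D.G1 s1 s2 * t + (D.dt + D.u1 * s1 + D.u2 * s2 + y * D.G2 s1 s2) := by
    funext t
    simp only [SlvD.D1]
    ring
  rw [hf]
  exact h.congr_deriv (by ring)

theorem slv_mp_D1_dy (D : SlvD) (x y s1 s2 : ℝ) : HasDerivAt (fun y' => D.D1 x y' s1 s2) (D.G2 s1 s2) y := by
  have h := slv_mp_deriv_quad 0 (D.G2 s1 s2) (D.dt + D.u1 * s1 + D.u2 * s2 + x * D.G1 s1 s2) y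
  have hf : (fun y' => D.D1 x y' s1 s2)
      = fun t : ℝ => 0 * t ^ 2 + D.G2 s1 s2 * t + (D.dt + D.u1 * s1 + D.u2 * s2 + x * D.G1 s1 s2) := by
    funext t
    simp only [SlvD.D1]
    ring
  rw [hf]
  exact h.congr_deriv (by ring)

theorem slv_mp_D0_dx (D : SlvD) (x y : ℝ) : HasDerivAt (fun x' => D.D0 x' y) (D.L1 x y) x := by
  have h := slv_mp_deriv_quad (D.a11 / 2) (D.u1 + D.a12 * y) (D.d0 + D.u2 * y + D.a22 * y ^ 2 / 2) x
  have hf : (fun x' => D.D0 x' y)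
      = fun t : ℝ => D.a11 / 2 * t ^ 2 + (D.u1 + D.a12 * y) * t + (D.d0 + D.u2 * y + D.a22 * y ^ 2 / 2) := by
    funext t
    simp only [SlvD.D0]
    ring
  rw [hf]
  exact h.congr_deriv (by simp only [SlvD.L1]; ring)

theorem slv_mp_D0_dy (D : SlvD) (x y : ℝ) : HasDerivAt (fun y' => D.D0 x y') (D.L2 x y) y := by
  have h := slv_mp_deriv_quad (D.a22 / 2) (D.u2 + D.a12 * x) (D.d0 + D.u1 * x + D.a11 * x ^ 2 / 2) y
  have hf : (fun y' => D.D0 x y')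
      = fun t : ℝ => D.a22 / 2 * t ^ 2 + (D.u2 + D.a12 * x) * t + (D.d0 + D.u1 * x + D.a11 * x ^ 2 / 2) := by
    funext t
    simp only [SlvD.D0]
    ring
  rw [hf]
  exact h.congr_deriv (by simp only [SlvD.L2]; ring)

/-- derivative of `g² - f` -/
theorem slv_mp_sq_sub (g f : ℝ → ℝ) (g' f' x d : ℝ) (hg : HasDerivAt g g' x) (hf : HasDerivAt f f' x)
    (hd : 2 * g x * g' - f' = d) : HasDerivAt (fun t => g t ^ 2 - f t) d x := by
  have e2 := (hg.pow 2).sub hf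
  have e3 : HasDerivAt (fun t => g t ^ 2 - f t) (((2 : ℕ) : ℝ) * g x ^ (2 - 1) * g' - f') x := e2
  exact e3.congr_deriv (by rw [← hd]; norm_num)

/-- the affine sheet stays close to its value at the witness -/
theorem slv_mp_close (K ς σ σ' G1 G2 x y b1 b2 : ℝ) (hK : 1 ≤ K) (hx : |x| ≤ K) (hy : |y| ≤ K) (hb1 : |b1| ≤ K) (hb2 : |b2| ≤ K)
    (hG1 : |G1| ≤ ς / (16 * K ^ 2)) (hG2 : |G2| ≤ ς / (16 * K ^ 2)) (h3 : ς ≤ |σ|) (hσ : 0 < |σ|) (hσ' : 3 / 4 * |σ| ≤ |σ'|) :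
    |((x - b1) * G1 + (y - b2) * G2) / (2 * σ')| ≤ 1 / (6 * K) := by
  have hK0 : 0 < K := by linarith
  have hς : 0 ≤ ς / (16 * K ^ 2) := le_trans (abs_nonneg _) hG1
  have hpos : 0 < 2 * |σ'| := by linarith
  rw [abs_div, abs_mul, abs_two, div_le_iff₀ hpos]
  have e1 : |x - b1| ≤ 2 * K := by
    have := abs_sub x b1
    linarith
  have e2 : |y - b2| ≤ 2 * K := by
    have := abs_sub y b2
    linarith
  have e3 : |(x - b1) * G1 + (y - b2) * G2| ≤ 2 * K * (ς / (16 * K ^ 2)) + 2 * K * (ς / (16 * K ^ 2)) := by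
    refine (abs_add_le _ _).trans ?_
    rw [abs_mul, abs_mul]
    exact add_le_add (mul_le_mul e1 hG1 (abs_nonneg _) (by linarith)) (mul_le_mul e2 hG2 (abs_nonneg _) (by linarith))
  have e4 : 2 * K * (ς / (16 * K ^ 2)) + 2 * K * (ς / (16 * K ^ 2)) = 1 / (6 * K) * (3 / 2 * ς) := by
    field_simp
    ring
  have e5 : 1 / (6 * K) * (3 / 2 * ς) ≤ 1 / (6 * K) * (2 * |σ'|) := by
    refine mul_le_mul_of_nonneg_left ?_ (by positivity)
    linarith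
  linarith

/-- **LEAF L-252-SLO-N5: THE pointwise lemma** (S4 of the written proof).
PLAN.  Witness `b1 b2 g0` of `hp`;  `σ := p.2.2`, `s := (p.1, p.2.1)`.   If `ς/(16K²) ≤ |G1 s|` or `≤ |G2 s|`: `Grad1`/`Grad2`.   Otherwise `|Gᵢ s| < ς/(16K²) < |σ|/(16K²)`.
`|g0| ≥ 1/K - |σ| ≥ 1/(2K)`.   `σ' := D1 b s/(2 g0)`:  `|σ - σ'| ≤ 8ε/(2|g0|) ≤ 8Kε < |σ|/4`, so `3|σ|/4 ≤ |σ'| ≤ 5|σ|/4`.
`g(x,y) := D1 x y s/(2σ')` is affine (`slv_D1_sub`), `g(b) = g0`, and on the square `|g - g0| ≤ (2K + 2K)(|σ|/(16K²))/(2 · 3|σ|/4) = 1/(6K)`:  `1/(4K) ≤ |g| ≤ 2K`.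
`F(x,y) := g(x,y)² - D0 x y`, `F₁ = g G1 s/σ' - L1 x y`, `F₂ = g G2 s/σ' - L2 x y`;  `|F(b)| ≤ ε`.   `slv_dich K ε F F₁ F₂`.
* boundary point `(x,y)`: `|g² - D0| ≤ ε ≤ 32K²ε`, `|2gσ - D1 x y s| = 2|g||σ - σ'| ≤ 2·2K·8Kε`, `|σ² - D2| ≤ 8ε`, `|σ| ≤ 1`;  `|x| = K` gives `x = K` or `x = -K`: `Ed1`, `|y| = K`: `Ed2`.
* critical point: `Gᵢ s = θ Lᵢ x y`, `θ = σ'/g`, `|θ| ≤ (5|σ|/4)(4K) ≤ 10Kς`;  `hloc`:  `|n·s + c| = |θ||n1 x + n2 y| ≤ 10Kς · K(|n1|+|n2|)`: the shell over the strip. -/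
theorem slv_mid_point (D : SlvD) (K ε : ℝ) (hK : 1 ≤ K) (hε : 0 < ε) (hε' : ε ≤ 1 / (1024 * K ^ 4)) (n1 n2 c : ℝ)
    (hloc : ∀ s1 s2 θ b1 b2 : ℝ, D.G1 s1 s2 = θ * D.L1 b1 b2 → D.G2 s1 s2 = θ * D.L2 b1 b2 →
      n1 * s1 + n2 * s2 + c = θ * (n1 * b1 + n2 * b2))
    (ς : ℝ) (p : ℝ × ℝ × ℝ) (hp : p ∈ slvCo D K ε) (h1 : 32 * K * ε < |p.2.2|) (h2 : |p.2.2| < 1 / (2 * K))
    (h3 : ς < |p.2.2|) (h4 : |p.2.2| ≤ 2 * ς) :
    p ∈ slvGrad1 D K ς (ς / (16 * K ^ 2)) (8 * ε) ∪ slvGrad2 D K ς (ς / (16 * K ^ 2)) (8 * ε) ∪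
        slvShell D (slvStrip K n1 n2 c (10 * K ^ 2 * ς)) ς (8 * ε) ∪
        (slvEd1 D K K (32 * K ^ 2 * ε) ∪ slvEd1 D K (-K) (32 * K ^ 2 * ε) ∪ slvEd2 D K K (32 * K ^ 2 * ε) ∪
          slvEd2 D K (-K) (32 * K ^ 2 * ε)) := by
  obtain ⟨s1, s2, σ⟩ := p
  obtain ⟨hs1, hs2, hσK, b1, b2, g0, hb1, hb2, hg0K, hlow, hc0, hc1, hc2⟩ := hp
  simp only at hs1 hs2 hσK hlow hc0 hc1 hc2 h1 h2 h3 h4
  have hK0 : 0 < K := by linarith
  by_cases hG1 : ς / (16 * K ^ 2) ≤ |D.G1 s1 s2|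
  · exact Or.inl (Or.inl (Or.inl ⟨hs2, h4, hG1, hc2⟩))
  by_cases hG2 : ς / (16 * K ^ 2) ≤ |D.G2 s1 s2|
  · exact Or.inl (Or.inl (Or.inr ⟨hs1, h4, hG2, hc2⟩))
  have hG1' := (not_le.mp hG1).le
  have hG2' := (not_le.mp hG2).le
  have hσpos : 0 < |σ| := lt_of_le_of_lt (by positivity) h1
  -- lower bound of `g0`
  have hhalf : 1 / K = 1 / (2 * K) + 1 / (2 * K) := by
    field_simp
    ring
  have hg0 : 1 / (2 * K) < |g0| := by linarith
  have hg0pos : 0 < |g0| := lt_trans (by positivity) hg0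
  have hg0ne : g0 ≠ 0 := abs_pos.mp hg0pos
  have hKg : 1 < K * (2 * |g0|) := by
    have : K * (2 * (1 / (2 * K))) < K * (2 * |g0|) := by
      apply mul_lt_mul_of_pos_left _ hK0
      linarith
    have e : K * (2 * (1 / (2 * K))) = 1 := by field_simp
    linarith
  -- the exact hidden slope
  set σ' : ℝ := D.D1 b1 b2 s1 s2 / (2 * g0) with hσ'def
  have hD1 : D.D1 b1 b2 s1 s2 = 2 * g0 * σ' := by
    rw [hσ'def]
    field_simp
  have hd : |σ - σ'| ≤ 8 * K * ε := by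
    have e : σ - σ' = (2 * g0 * σ - D.D1 b1 b2 s1 s2) / (2 * g0) := by
      rw [hD1]
      field_simp
    rw [e, abs_div, abs_mul, abs_two, div_le_iff₀ (by positivity)]
    calc |2 * g0 * σ - D.D1 b1 b2 s1 s2| ≤ 8 * ε * 1 := by linarith
      _ ≤ 8 * ε * (K * (2 * |g0|)) := mul_le_mul_of_nonneg_left hKg.le (by positivity)
      _ = 8 * K * ε * (2 * |g0|) := by ring
  have hσ'lo : 3 / 4 * |σ| ≤ |σ'| := by
    have := abs_sub_abs_le_abs_sub σ σ'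
    linarith
  have hσ'hi : |σ'| ≤ 5 / 4 * |σ| := by
    have := abs_sub_abs_le_abs_sub σ' σ
    rw [abs_sub_comm σ' σ] at this
    linarith
  have hσ'pos : 0 < |σ'| := by linarith
  have hσ'ne : σ' ≠ 0 := abs_pos.mp hσ'pos
  -- the affine sheet
  set gf : ℝ → ℝ → ℝ := fun x y => D.D1 x y s1 s2 / (2 * σ') with hgf
  have hgb : gf b1 b2 = g0 := by
    simp only [hgf, hD1]
    field_simp
  have hgclose : ∀ x y, |x| ≤ K → |y| ≤ K → |gf x y - g0| ≤ 1 / (6 * K) := by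
    intro x y hx hy
    have e : gf x y - g0 = ((x - b1) * D.G1 s1 s2 + (y - b2) * D.G2 s1 s2) / (2 * σ') := by
      rw [← hgb, ← slv_D1_sub]
      simp only [hgf]
      ring
    rw [e]
    exact slv_mp_close K ς σ σ' _ _ x y b1 b2 hK hx hy hb1 hb2 hG1' hG2' h3.le hσpos hσ'lo
  have h6 : 1 / (6 * K) + 1 / (4 * K) ≤ 1 / (2 * K) := by
    have e : 1 / (2 * K) - (1 / (6 * K) + 1 / (4 * K)) = 1 / (12 * K) := by
      field_simp
      ring
    have : 0 ≤ 1 / (12 * K) := by positivity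
    linarith
  have hglo : ∀ x y, |x| ≤ K → |y| ≤ K → 1 / (4 * K) ≤ |gf x y| := by
    intro x y hx hy
    have e1 := hgclose x y hx hy
    have e2 := abs_sub_abs_le_abs_sub g0 (gf x y)
    rw [abs_sub_comm g0 (gf x y)] at e2
    linarith
  have hghi : ∀ x y, |x| ≤ K → |y| ≤ K → |gf x y| ≤ 2 * K := by
    intro x y hx hy
    have e1 := hgclose x y hx hy
    have e2 := abs_sub_abs_le_abs_sub (gf x y) g0
    have e3 : 1 / (6 * K) ≤ K := by
      rw [div_le_iff₀ (by positivity)]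
      have : 1 * 1 ≤ K * K := mul_le_mul hK hK (by norm_num) hK0.le
      linarith
    linarith
  -- the dichotomy
  have hcont : Continuous fun q : ℝ × ℝ => gf q.1 q.2 ^ 2 - D.D0 q.1 q.2 := by
    simp only [hgf, SlvD.D1, SlvD.D0]
    fun_prop
  have hdx : ∀ x y, HasDerivAt (fun x' => gf x' y ^ 2 - D.D0 x' y) (gf x y * D.G1 s1 s2 / σ' - D.L1 x y) x := by
    intro x y
    have e1 : HasDerivAt (fun x' => gf x' y) (D.G1 s1 s2 / (2 * σ')) x := (slv_mp_D1_dx D x y s1 s2).div_const _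
    refine slv_mp_sq_sub _ _ _ _ _ _ e1 (slv_mp_D0_dx D x y) ?_
    field_simp
  have hdy : ∀ x y, HasDerivAt (fun y' => gf x y' ^ 2 - D.D0 x y') (gf x y * D.G2 s1 s2 / σ' - D.L2 x y) y := by
    intro x y
    have e1 : HasDerivAt (fun y' => gf x y') (D.G2 s1 s2 / (2 * σ')) y := (slv_mp_D1_dy D x y s1 s2).div_const _
    refine slv_mp_sq_sub _ _ _ _ _ _ e1 (slv_mp_D0_dy D x y) ?_
    field_simp
  have hF0 : |gf b1 b2 ^ 2 - D.D0 b1 b2| ≤ ε := by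
    rw [hgb]
    exact hc0
  have hK2 : 1 ≤ K ^ 2 := one_le_pow₀ hK
  have hK2ε : 1 * ε ≤ K ^ 2 * ε := mul_le_mul_of_nonneg_right hK2 hε.le
  have hεK : ε ≤ 32 * K ^ 2 * ε := by linarith
  have h8εK : 8 * ε ≤ 32 * K ^ 2 * ε := by linarith
  have hσ1 : |σ| ≤ 1 := by
    have : 1 / (2 * K) ≤ 1 := by
      rw [div_le_iff₀ (by positivity)]
      linarith
    linarith
  rcases slv_dich K ε (fun x y => gf x y ^ 2 - D.D0 x y) (fun x y => gf x y * D.G1 s1 s2 / σ' - D.L1 x y)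
      (fun x y => gf x y * D.G2 s1 s2 / σ' - D.L2 x y) hcont hdx hdy b1 b2 hb1 hb2 hF0 with
    ⟨x, y, hx, hy, hxy, hF⟩ | ⟨x, y, hx, hy, hF1, hF2⟩
  · -- a boundary witness
    right
    have hmid : |2 * gf x y * σ - D.D1 x y s1 s2| ≤ 32 * K ^ 2 * ε := by
      have e : 2 * gf x y * σ - D.D1 x y s1 s2 = 2 * gf x y * (σ - σ') := by
        simp only [hgf]
        field_simp
      rw [e, abs_mul, abs_mul, abs_two]
      calc 2 * |gf x y| * |σ - σ'| ≤ 2 * (2 * K) * (8 * K * ε) :=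
            mul_le_mul (by linarith [hghi x y hx hy]) hd (abs_nonneg _) (by positivity)
        _ = 32 * K ^ 2 * ε := by ring
    have hF' : |gf x y ^ 2 - D.D0 x y| ≤ 32 * K ^ 2 * ε := le_trans hF hεK
    have hgl := hglo x y hx hy
    have hgh := hghi x y hx hy
    rcases hxy with hxK | hyK
    · rcases (abs_eq hK0.le).mp hxK with h | h
      · rw [h] at hF' hmid hgl hgh
        exact Or.inl (Or.inl (Or.inl ⟨hs1, hs2, hσ1, y, gf K y, hy, hgl, hgh, hF', hmid, hc2.trans h8εK⟩))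
      · rw [h] at hF' hmid hgl hgh
        exact Or.inl (Or.inl (Or.inr ⟨hs1, hs2, hσ1, y, gf (-K) y, hy, hgl, hgh, hF', hmid, hc2.trans h8εK⟩))
    · rcases (abs_eq hK0.le).mp hyK with h | h
      · rw [h] at hF' hmid hgl hgh
        exact Or.inl (Or.inr ⟨hs1, hs2, hσ1, x, gf x K, hx, hgl, hgh, hF', hmid, hc2.trans h8εK⟩)
      · rw [h] at hF' hmid hgl hgh
        exact Or.inr ⟨hs1, hs2, hσ1, x, gf x (-K), hx, hgl, hgh, hF', hmid, hc2.trans h8εK⟩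
  · -- a critical point
    left
    right
    have hgl := hglo x y hx.le hy.le
    have hgpos : 0 < |gf x y| := lt_of_lt_of_le (by positivity) hgl
    have hgne : gf x y ≠ 0 := abs_pos.mp hgpos
    have e1 : D.G1 s1 s2 = σ' / gf x y * D.L1 x y := by
      have : D.L1 x y = gf x y * D.G1 s1 s2 / σ' := by linarith
      rw [this]
      field_simp
    have e2 : D.G2 s1 s2 = σ' / gf x y * D.L2 x y := by
      have : D.L2 x y = gf x y * D.G2 s1 s2 / σ' := by linarith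
      rw [this]
      field_simp
    have e3 := hloc s1 s2 (σ' / gf x y) x y e1 e2
    have hθ : |σ' / gf x y| ≤ 10 * K * ς := by
      rw [abs_div, div_le_iff₀ hgpos]
      have hς : 0 ≤ ς := by linarith
      calc |σ'| ≤ 5 / 4 * (2 * ς) := by linarith
        _ = 10 * K * ς * (1 / (4 * K)) := by field_simp; ring
        _ ≤ 10 * K * ς * |gf x y| := mul_le_mul_of_nonneg_left hgl (by positivity)
    have hn : |n1 * x + n2 * y| ≤ K * (|n1| + |n2|) := by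
      refine (abs_add_le _ _).trans ?_
      rw [abs_mul, abs_mul]
      have a1 : |n1| * |x| ≤ |n1| * K := mul_le_mul_of_nonneg_left hx.le (abs_nonneg _)
      have a2 : |n2| * |y| ≤ |n2| * K := mul_le_mul_of_nonneg_left hy.le (abs_nonneg _)
      linarith
    refine ⟨⟨hs1, hs2, ?_⟩, h3.le, hc2⟩
    show |n1 * s1 + n2 * s2 + c| ≤ 10 * K ^ 2 * ς * (|n1| + |n2|)
    rw [e3, abs_mul]
    calc |σ' / gf x y| * |n1 * x + n2 * y| ≤ (10 * K * ς) * (K * (|n1| + |n2|)) :=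
          mul_le_mul hθ hn (abs_nonneg _) (le_trans (abs_nonneg _) hθ)
      _ = 10 * K ^ 2 * ς * (|n1| + |n2|) := by ring

/-- **LEAF L-252-SLO-N6: dyadic location.**   `Nat.find` of `{j | κ/2^(j+1) < x}` (contains `J - 1`; `J ≥ 1` because `x < κ`), minimality gives `x ≤ κ/2^j`;  or `exists_nat_pow_near` for `κ/x`. -/
theorem slv_dyadic (κ x : ℝ) (J : ℕ) (hx : 0 < x) (hx' : x < κ) (hJ : κ / 2 ^ J < x) :
    ∃ j < J, κ / 2 ^ (j + 1) < x ∧ x ≤ 2 * (κ / 2 ^ (j + 1)) := by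
  classical
  have hκ : 0 < κ := hx.trans hx'
  have hex : ∃ n : ℕ, κ / 2 ^ n < x := ⟨J, hJ⟩
  obtain ⟨n, hn⟩ : ∃ n, n = Nat.find hex := ⟨_, rfl⟩
  have hn1 : κ / 2 ^ n < x := hn ▸ Nat.find_spec hex
  have hnJ : n ≤ J := hn ▸ Nat.find_min' hex hJ
  have hn0 : n ≠ 0 := by
    rintro rfl
    simp only [pow_zero, div_one] at hn1
    linarith
  obtain ⟨j, rfl⟩ := Nat.exists_eq_succ_of_ne_zero hn0
  refine ⟨j, hnJ, hn1, ?_⟩
  have hmin : ¬ κ / 2 ^ j < x := by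
    apply Nat.find_min hex
    rw [← hn]
    exact Nat.lt_succ_self j
  rw [not_lt] at hmin
  have : 2 * (κ / 2 ^ (j + 1)) = κ / 2 ^ j := by
    rw [pow_succ]
    field_simp
  rw [this]
  exact hmin

/-! ## 4. Assembly -/

/-- the pieces at the scale `ς` -/
def slvScale (D : SlvD) (K ε n1 n2 c ς : ℝ) : Set (ℝ × ℝ × ℝ) :=
  slvGrad1 D K ς (ς / (16 * K ^ 2)) (8 * ε) ∪ slvGrad2 D K ς (ς / (16 * K ^ 2)) (8 * ε) ∪
    slvShell D (slvStrip K n1 n2 c (10 * K ^ 2 * ς)) ς (8 * ε)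

/-- **LEAF L-252-SLO-N7: one scale.**   `measure_union_le`, `slv_grad1_vol`, `slv_grad2_vol` (`64 K ς 8ε · 16K²/ς = 8192 K³ ε` each), `slv_shell_vol` + `slv_strip_vol` (`16 K · 10K²ς · 16ε/ς = 2560 K³ ε`). -/
theorem slv_scale_vol (D : SlvD) (K ε n1 n2 c ς : ℝ) (hK : 1 ≤ K) (hε : 0 < ε) (hς : 0 < ς) (hn : n1 ≠ 0 ∨ n2 ≠ 0) :
    volume (slvScale D K ε n1 n2 c ς) ≤ ENNReal.ofReal (18944 * K ^ 3 * ε) := by
  have hK0 : (0 : ℝ) < K := by linarith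
  have hγ : 0 < ς / (16 * K ^ 2) := by positivity
  have e1 : 64 * K * ς * (8 * ε) / (ς / (16 * K ^ 2)) = 8192 * K ^ 3 * ε := by
    field_simp
    ring
  have h1 := slv_grad1_vol D K ς (ς / (16 * K ^ 2)) (8 * ε) hK0.le hς.le hγ (by positivity)
  have h2 := slv_grad2_vol D K ς (ς / (16 * K ^ 2)) (8 * ε) hK0.le hς.le hγ (by positivity)
  rw [e1] at h1 h2
  have h3 : volume (slvShell D (slvStrip K n1 n2 c (10 * K ^ 2 * ς)) ς (8 * ε)) ≤ ENNReal.ofReal (2560 * K ^ 3 * ε) := by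
    refine (slv_shell_vol D _ (slv_strip_closed K n1 n2 c _) ς (8 * ε) hς (by positivity)).trans ?_
    refine (mul_le_mul' (slv_strip_vol K n1 n2 c (10 * K ^ 2 * ς) hK0.le (by positivity) hn) le_rfl).trans (le_of_eq ?_)
    rw [← ENNReal.ofReal_mul (by positivity)]
    congr 1
    field_simp
    ring
  unfold slvScale
  refine (measure_union_le _ _).trans ((add_le_add ((measure_union_le _ _).trans (add_le_add h1 h2)) h3).trans (le_of_eq ?_))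
  rw [← ENNReal.ofReal_add (by positivity) (by positivity), ← ENNReal.ofReal_add (by positivity) (by positivity)]
  congr 1
  ring

/-- **LEAF L-252-SLO-N8: the covering.**   `|σ| ≥ 1/(2K)`, `|σ| ≤ 32Kε`, or `slv_dyadic` with `κ = 1/(2K)` (`κ/2^J ≤ 32Kε` by `hJ`) and `slv_mid_point`. -/
theorem slv_cover (D : SlvD) (K ε : ℝ) (hK : 1 ≤ K) (hε : 0 < ε) (hε' : ε ≤ 1 / (1024 * K ^ 4)) (n1 n2 c : ℝ)
    (hloc : ∀ s1 s2 θ b1 b2 : ℝ, D.G1 s1 s2 = θ * D.L1 b1 b2 → D.G2 s1 s2 = θ * D.L2 b1 b2 →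
      n1 * s1 + n2 * s2 + c = θ * (n1 * b1 + n2 * b2))
    (J : ℕ) (hJ : 1 / (64 * K ^ 2 * ε) ≤ 2 ^ J) :
    slvCo D K ε ⊆ slvShell D (slvBox K) (1 / (2 * K)) (8 * ε) ∪ slvTiny K (32 * K * ε) ∪
      (⋃ j ∈ Finset.range J, slvScale D K ε n1 n2 c (1 / (2 * K) / 2 ^ (j + 1))) ∪
      (slvEd1 D K K (32 * K ^ 2 * ε) ∪ slvEd1 D K (-K) (32 * K ^ 2 * ε) ∪ slvEd2 D K K (32 * K ^ 2 * ε) ∪
        slvEd2 D K (-K) (32 * K ^ 2 * ε)) := by
  have hK0 : (0 : ℝ) < K := by linarith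
  intro p hp
  by_cases hbig : 1 / (2 * K) ≤ |p.2.2|
  · left; left; left
    obtain ⟨h1, h2, -, b1, b2, g0, -, -, -, -, -, -, h3⟩ := hp
    exact ⟨⟨h1, h2⟩, hbig, h3⟩
  rw [not_le] at hbig
  by_cases htiny : |p.2.2| ≤ 32 * K * ε
  · left; left; right
    exact ⟨hp.1, hp.2.1, htiny⟩
  rw [not_le] at htiny
  have hJ' : 1 / (2 * K) / 2 ^ J < |p.2.2| := by
    refine lt_of_le_of_lt ?_ htiny
    rw [div_le_iff₀ (by positivity)] at hJ ⊢
    rw [div_le_iff₀ (by positivity)]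
    nlinarith
  obtain ⟨j, hj, hj1, hj2⟩ := slv_dyadic (1 / (2 * K)) |p.2.2| J (lt_trans (by positivity) htiny) hbig hJ'
  have := slv_mid_point D K ε hK hε hε' n1 n2 c hloc (1 / (2 * K) / 2 ^ (j + 1)) p hp htiny hbig hj1 hj2
  rcases this with h | h
  · left; right
    simp only [Set.mem_iUnion, Finset.mem_range]
    exact ⟨j, hj, h⟩
  · right
    exact h

/-- **LEAF L-252-SLO-N9: the sum.**   `slv_locator`, `slv_cover`, `measure_union_le`, `measure_biUnion_finset_le`, `slv_shell_vol` with `slvBox` (`slv_rect`: `16K² · 16ε · 2K = 512 K³ε`), `slv_tiny_vol` (`32K² · 32Kε = 1024K³ε`),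
`slv_scale_vol`, `slv_ed1_vol`, `slv_ed2_vol` (`e = 32K²ε ≤ 1/(32K²)` by `hε'`; `4 · 4000K⁴ · 32K²ε = 512000 K⁶ε`). -/
theorem slv_co_vol (D : SlvD) (K ε : ℝ) (hK : 1 ≤ K) (hε : 0 < ε) (hε' : ε ≤ 1 / (1024 * K ^ 4)) (hdet : D.det ≠ 0)
    (J : ℕ) (hJ : 1 / (64 * K ^ 2 * ε) ≤ 2 ^ J) :
    volume (slvCo D K ε) ≤ ENNReal.ofReal ((1536 + 18944 * J) * K ^ 3 * ε + 512000 * K ^ 6 * ε) := by
  have hK0 : (0 : ℝ) < K := by linarith
  obtain ⟨n1, n2, c, hn, hloc⟩ := slv_locator D hdet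
  have he0 : 0 ≤ 32 * K ^ 2 * ε := by positivity
  have he : 32 * K ^ 2 * ε ≤ 1 / (32 * K ^ 2) := by
    rw [le_div_iff₀ (by positivity)] at hε' ⊢
    nlinarith
  have hbig : volume (slvShell D (slvBox K) (1 / (2 * K)) (8 * ε)) ≤ ENNReal.ofReal (512 * K ^ 3 * ε) := by
    refine (slv_shell_vol D _ (slv_box_closed K) _ (8 * ε) (by positivity) (by positivity)).trans (le_of_eq ?_)
    have : volume (slvBox K) = ENNReal.ofReal (2 * (2 * K)) * ENNReal.ofReal (2 * (2 * K)) := slv_rect (2 * K) (2 * K)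
    rw [this, ← ENNReal.ofReal_mul (by positivity), ← ENNReal.ofReal_mul (by positivity)]
    congr 1
    field_simp
    ring
  have htiny : volume (slvTiny K (32 * K * ε)) ≤ ENNReal.ofReal (1024 * K ^ 3 * ε) := by
    refine (slv_tiny_vol K _ hK0.le (by positivity)).trans (le_of_eq ?_)
    congr 1
    ring
  have hsc : volume (⋃ j ∈ Finset.range J, slvScale D K ε n1 n2 c (1 / (2 * K) / 2 ^ (j + 1)))
      ≤ ENNReal.ofReal (J * (18944 * K ^ 3 * ε)) := by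
    refine (measure_biUnion_finset_le _ _).trans ?_
    refine (Finset.sum_le_sum fun j _ => slv_scale_vol D K ε n1 n2 c _ hK hε (by positivity) hn).trans (le_of_eq ?_)
    rw [Finset.sum_const, Finset.card_range, nsmul_eq_mul, ENNReal.ofReal_mul (Nat.cast_nonneg _), ENNReal.ofReal_natCast]
  have hed : volume (slvEd1 D K K (32 * K ^ 2 * ε) ∪ slvEd1 D K (-K) (32 * K ^ 2 * ε) ∪ slvEd2 D K K (32 * K ^ 2 * ε) ∪
        slvEd2 D K (-K) (32 * K ^ 2 * ε)) ≤ ENNReal.ofReal (512000 * K ^ 6 * ε) := by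
    refine (measure_union_le _ _).trans ((add_le_add ((measure_union_le _ _).trans (add_le_add ((measure_union_le _ _).trans
      (add_le_add (slv_ed1_vol D K K _ hK he0 he) (slv_ed1_vol D K (-K) _ hK he0 he))) (slv_ed2_vol D K K _ hK he0 he)))
      (slv_ed2_vol D K (-K) _ hK he0 he)).trans (le_of_eq ?_))
    rw [← ENNReal.ofReal_add (by positivity) (by positivity), ← ENNReal.ofReal_add (by positivity) (by positivity),
      ← ENNReal.ofReal_add (by positivity) (by positivity)]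
    congr 1
    ring
  refine (measure_mono (slv_cover D K ε hK hε hε' n1 n2 c hloc J hJ)).trans ?_
  refine (measure_union_le _ _).trans ((add_le_add ((measure_union_le _ _).trans (add_le_add ((measure_union_le _ _).trans
    (add_le_add hbig htiny)) hsc)) hed).trans (le_of_eq ?_))
  rw [← ENNReal.ofReal_add (by positivity) (by positivity), ← ENNReal.ofReal_add (by positivity) (by positivity),
    ← ENNReal.ofReal_add (by positivity) (by positivity)]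
  congr 1
  ring

/-! ## 5. Perturbation and the final statement -/

/-- **LEAF L-252-SLO-N10a.**   `(D.pert τ).ev t y1 y2 = D.ev t y1 y2 + τ (y1² + y2²)/2` and `|yᵢ| ≤ K`. -/
theorem slv_pert_sub (D : SlvD) (K ε τ : ℝ) (hτ : 0 ≤ τ) (hτ' : τ * K ^ 2 ≤ ε) : slvSig D K ε ⊆ slvSig (D.pert τ) K (2 * ε) := by
  rintro p ⟨b1, b2, g0, hall, hlow⟩
  refine ⟨b1, b2, g0, fun t ht => ?_, hlow⟩
  obtain ⟨h1, h2, h3, h4⟩ := hall t ht
  refine ⟨h1, h2, h3, ?_⟩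
  obtain ⟨y1, hy1⟩ : ∃ y1, y1 = b1 + t * p.1 := ⟨_, rfl⟩
  obtain ⟨y2, hy2⟩ : ∃ y2, y2 = b2 + t * p.2.1 := ⟨_, rfl⟩
  rw [← hy1, ← hy2] at h4 ⊢
  rw [← hy1] at h1
  rw [← hy2] at h2
  have e : (D.pert τ).ev t y1 y2 = D.ev t y1 y2 + τ * (y1 ^ 2 + y2 ^ 2) / 2 := by
    simp only [SlvD.pert, SlvD.ev]
    ring
  rw [e]
  have s1 : y1 ^ 2 ≤ K ^ 2 := sq_le_sq' (abs_le.mp h1).1 (abs_le.mp h1).2
  have s2 : y2 ^ 2 ≤ K ^ 2 := sq_le_sq' (abs_le.mp h2).1 (abs_le.mp h2).2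
  have b : τ * (y1 ^ 2 + y2 ^ 2) / 2 ≤ ε := by
    have : τ * (y1 ^ 2 + y2 ^ 2) ≤ τ * (2 * K ^ 2) := mul_le_mul_of_nonneg_left (by linarith) hτ
    linarith
  have b0 : 0 ≤ τ * (y1 ^ 2 + y2 ^ 2) / 2 := by positivity
  rw [abs_le] at h4 ⊢
  constructor <;> linarith [h4.1, h4.2]

/-- **LEAF L-252-SLO-N10b.**   `(D.pert τ).det = D.det + τ (a11 + a22) + τ²` cannot vanish at the three points `τ = η/3, 2η/3, η` (second difference `2η²/9 ≠ 0`). -/
theorem slv_pert_det (D : SlvD) (η : ℝ) (hη : 0 < η) : ∃ τ : ℝ, 0 ≤ τ ∧ τ ≤ η ∧ (D.pert τ).det ≠ 0 := by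
  have e : ∀ τ, (D.pert τ).det = D.det + τ * (D.a11 + D.a22) + τ ^ 2 := by
    intro τ
    simp only [SlvD.pert, SlvD.det]
    ring
  by_contra hcon
  have hz : ∀ τ : ℝ, 0 ≤ τ → τ ≤ η → (D.pert τ).det = 0 := by
    intro τ h0 h1
    by_contra h
    exact hcon ⟨τ, h0, h1, h⟩
  have z1 := hz (η / 3) (by positivity) (by linarith)
  have z2 := hz (2 * η / 3) (by positivity) (by linarith)
  have z3 := hz η hη.le le_rfl
  rw [e] at z1 z2 z3
  have : η ^ 2 = 0 := by nlinarith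
  exact absurd (pow_eq_zero_iff (two_ne_zero)|>.mp this) hη.ne'

/-- **LEAF L-252-SLO-N11: the number of scales.**   `Y := 1 + 1/ε > 1`, `J := ⌈Real.logb 2 Y⌉₊`:  `2^J ≥ Y ≥ 1/(64K²ε)` (`Real.rpow_natCast`, `Real.rpow_logb`), `J ≤ logb 2 Y + 1`, `logb 2 Y = log Y/log 2 ≤ 2 log Y` (`Real.log_two_gt_d9`). -/
theorem slv_J_exists (K ε : ℝ) (hK : 1 ≤ K) (hε : 0 < ε) :
    ∃ J : ℕ, 1 / (64 * K ^ 2 * ε) ≤ 2 ^ J ∧ (J : ℝ) ≤ 1 + 2 * Real.log (1 + 1 / ε) := by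
  have hY : 1 < 1 + 1 / ε := by
    have : 0 < 1 / ε := by positivity
    linarith
  obtain ⟨Y, hYdef⟩ : ∃ Y, Y = 1 + 1 / ε := ⟨_, rfl⟩
  rw [← hYdef] at hY ⊢
  have hlogY : 0 < Real.log Y := Real.log_pos hY
  have hX : 1 / (64 * K ^ 2 * ε) ≤ Y := by
    have h1 : 1 / (64 * K ^ 2 * ε) ≤ 1 / ε := by
      apply one_div_le_one_div_of_le hε
      have : 1 ≤ 64 * K ^ 2 := by nlinarith
      nlinarith
    rw [hYdef]
    linarith
  refine ⟨⌈Real.logb 2 Y⌉₊, ?_, ?_⟩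
  · refine hX.trans ?_
    have h2 : Y = (2 : ℝ) ^ Real.logb 2 Y := (Real.rpow_logb (by norm_num) (by norm_num) (by linarith)).symm
    calc Y = (2 : ℝ) ^ Real.logb 2 Y := h2
      _ ≤ (2 : ℝ) ^ ((⌈Real.logb 2 Y⌉₊ : ℕ) : ℝ) := Real.rpow_le_rpow_of_exponent_le (by norm_num) (Nat.le_ceil _)
      _ = 2 ^ ⌈Real.logb 2 Y⌉₊ := Real.rpow_natCast _ _
  · have hpos : 0 ≤ Real.logb 2 Y := Real.logb_nonneg (by norm_num) hY.le
    have h1 : ((⌈Real.logb 2 Y⌉₊ : ℕ) : ℝ) < Real.logb 2 Y + 1 := Nat.ceil_lt_add_one hpos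
    have h2 : Real.logb 2 Y ≤ 2 * Real.log Y := by
      rw [Real.logb, div_le_iff₀ (Real.log_pos (by norm_num))]
      have := Real.log_two_gt_d9
      nlinarith
    linarith

/-- **THE NORMAL FORM THEOREM** (LEAF L-252-SLO-N12: assembly).
PLAN.  `L := log (1 + 1/ε) ≥ 0`.   If `1/(2048 K⁴) < ε`:  `slv_sig_sub_co`, `slv_co_box`, `64K³ ≤ 64K³ · 2048K⁴ε`.
Otherwise `ε' := 2ε ≤ 1/(1024K⁴)`;  `slv_pert_det D (ε/K²)` gives `τ`;  `slvSig D K ε ⊆ slvSig (D.pert τ) K ε' ⊆ slvCo (D.pert τ) K ε'`;  `slv_J_exists K ε'` (`log (1 + 1/ε') ≤ L`);  `slv_co_vol`;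
`(1536 + 18944 (1 + 2L)) K³ 2ε + 512000 K⁶ 2ε ≤ 1064960 (1 + L) K⁶ ε`. -/
theorem slv_nf (D : SlvD) (K ε : ℝ) (hK : 1 ≤ K) (hε : 0 < ε) :
    volume (slvSig D K ε) ≤ ENNReal.ofReal (2 * 10 ^ 6 * K ^ 7 * ε * (1 + Real.log (1 + 1 / ε))) := by
  have hK0 : (0 : ℝ) < K := by linarith
  have hL : 0 ≤ Real.log (1 + 1 / ε) := Real.log_nonneg (by have : 0 < 1 / ε := by positivity
                                                            linarith)
  obtain ⟨L, hLdef⟩ : ∃ L, L = Real.log (1 + 1 / ε) := ⟨_, rfl⟩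
  rw [← hLdef] at hL ⊢
  have hK67 : K ^ 6 ≤ K ^ 7 := pow_le_pow_right₀ hK (by norm_num)
  have hK36 : K ^ 3 ≤ K ^ 6 := pow_le_pow_right₀ hK (by norm_num)
  by_cases hcase : 1 / (2048 * K ^ 4) < ε
  · refine (measure_mono (slv_sig_sub_co D K ε)).trans ((slv_co_box D K ε hK0.le).trans ?_)
    apply ENNReal.ofReal_le_ofReal
    have h1 : 1 < 2048 * K ^ 4 * ε := by
      rw [div_lt_iff₀ (by positivity)] at hcase
      linarith
    have h2 : 64 * K ^ 3 ≤ 64 * K ^ 3 * (2048 * K ^ 4 * ε) := by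
      have : 0 ≤ 64 * K ^ 3 := by positivity
      nlinarith
    have h3 : 64 * K ^ 3 * (2048 * K ^ 4 * ε) = 131072 * (K ^ 7 * ε) := by ring
    have h4 : 0 ≤ K ^ 7 * ε := by positivity
    have h5 : 0 ≤ K ^ 7 * ε * L := by positivity
    nlinarith
  · rw [not_lt] at hcase
    have hε2 : 2 * ε ≤ 1 / (1024 * K ^ 4) := by
      have : 1 / (1024 * K ^ 4) = 2 * (1 / (2048 * K ^ 4)) := by
        field_simp
        norm_num
      rw [this]
      linarith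
    obtain ⟨τ, hτ0, hτ1, hdet⟩ := slv_pert_det D (ε / K ^ 2) (by positivity)
    have hτK : τ * K ^ 2 ≤ ε := by
      rw [le_div_iff₀ (by positivity)] at hτ1
      exact hτ1
    obtain ⟨J, hJ1, hJ2⟩ := slv_J_exists K (2 * ε) hK (by positivity)
    have hJL : (J : ℝ) ≤ 1 + 2 * L := by
      refine hJ2.trans ?_
      have : Real.log (1 + 1 / (2 * ε)) ≤ L := by
        rw [hLdef]
        apply Real.log_le_log (by positivity)
        have : 1 / (2 * ε) ≤ 1 / ε := one_div_le_one_div_of_le hε (by linarith)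
        linarith
      linarith
    refine (measure_mono ((slv_pert_sub D K ε τ hτ0 hτK).trans (slv_sig_sub_co _ K (2 * ε)))).trans
      ((slv_co_vol (D.pert τ) K (2 * ε) hK (by positivity) hε2 hdet J hJ1).trans ?_)
    apply ENNReal.ofReal_le_ofReal
    have hA : 0 ≤ K ^ 3 * ε := by positivity
    have hB : K ^ 3 * ε ≤ K ^ 6 * ε := mul_le_mul_of_nonneg_right hK36 hε.le
    have hC : K ^ 6 * ε ≤ K ^ 7 * ε := mul_le_mul_of_nonneg_right hK67 hε.le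
    have h1 : (1536 + 18944 * (J : ℝ)) * K ^ 3 * (2 * ε) ≤ (1536 + 18944 * (1 + 2 * L)) * (2 * (K ^ 3 * ε)) := by
      have : (1536 + 18944 * (J : ℝ)) ≤ (1536 + 18944 * (1 + 2 * L)) := by linarith
      calc (1536 + 18944 * (J : ℝ)) * K ^ 3 * (2 * ε) = (1536 + 18944 * (J : ℝ)) * (2 * (K ^ 3 * ε)) := by ring
        _ ≤ _ := mul_le_mul_of_nonneg_right this (by positivity)
    have h2 : (1536 + 18944 * (1 + 2 * L)) * (2 * (K ^ 3 * ε)) ≤ (1536 + 18944 * (1 + 2 * L)) * (2 * (K ^ 7 * ε)) := by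
      apply mul_le_mul_of_nonneg_left _ (by positivity)
      linarith
    have h3 : 512000 * K ^ 6 * (2 * ε) ≤ 1024000 * (K ^ 7 * ε) := by nlinarith
    have h4 : 0 ≤ K ^ 7 * ε := by positivity
    have h5 : 0 ≤ K ^ 7 * ε * L := by positivity
    nlinarith

end Claimed.Agent.R252
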