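import Mathlib

/-!
# ROW 252 (S0492), unit T2-SLOPE = BOX 7 (slope-volume bound of Theorem 2.17, 02-framework.tex l.1490-1625).   Reduction to the normal form + CONSUMER FORM  (co-architect helper6; main architect of the unit: helper17).
File 1: DEFINITIONS (Mathlib only, prefix `slr_` / `Slr`).

* `SlrQ`, `SlrQ.ev`, `SlrQ.dw`: a polynomial of total degree `≤ 2` in `(t, y, w) ∈ ℝ × ℝ² × ℝ`; SAME fields and SAME formula as `KbQuad KbVer.two` / `KbQuad.ev` of `Base/Pb.lean`;   `dw = ∂_w` (`slr_dw_eq`: it is the finite difference `kbDw`).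
* `slrSig Q Di y0 y1 t0 q K a R ⊆ Fin 3 → ℝ`: the set `Σ` of the paper (l.1491-1506): bounded slopes `s` for which some bounded intercept `b` passes the four geometric tests on `I = [t0, t0+q]`;
  `Di = D_phys⁻¹`, centre `y_c(t) = y0 + t y1`, line `x(t) = b + t s`, `y = (x 0, x 1)`, `w = x 2`.
* `SlrIsQ Δ`: `Δ : ℝ → ℝ → ℝ → ℝ` is a polynomial function of degree `≤ 2` in `(t, y1, y2)`.
* `slrNFset Δ K ε ⊆ (ℝ × ℝ) × ℝ`: the set of THEOREM NF of `origin/helper17:notes/R252/slope_helper17.md` (hidden coordinate `g = P_w`, `I = [0,1]`).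
* `SlrNF C n`: THEOREM NF as a proposition (proved by helper17's files), with the loss `1 + log (1 + 1/ε)`.
-/

set_option autoImplicit false

namespace Claimed.Agent.R252

open MeasureTheory
open scoped ENNReal

noncomputable section

/-- coefficients of a polynomial of total degree `≤ 2` in `(t, y, w)`, `y ∈ ℝ²` -/
structure SlrQ where
  c0 : ℝ
  ct : ℝ
  cy : Fin 2 → ℝ
  cw : ℝ
  ctt : ℝ
  cty : Fin 2 → ℝ
  ctw : ℝ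
  cyy : Matrix (Fin 2) (Fin 2) ℝ
  cyw : Fin 2 → ℝ
  cww : ℝ

/-- evaluation (the formula of `KbQuad.ev`) -/
def SlrQ.ev (Q : SlrQ) (t : ℝ) (y : Fin 2 → ℝ) (w : ℝ) : ℝ :=
  Q.c0 + Q.ct * t + Q.cy ⬝ᵥ y + Q.cw * w + Q.ctt * t ^ 2 + t * (Q.cty ⬝ᵥ y) + Q.ctw * t * w + y ⬝ᵥ Q.cyy.mulVec y
    + w * (Q.cyw ⬝ᵥ y) + Q.cww * w ^ 2

/-- `∂_w` -/
def SlrQ.dw (Q : SlrQ) (t : ℝ) (y : Fin 2 → ℝ) (w : ℝ) : ℝ := Q.cw + Q.ctw * t + Q.cyw ⬝ᵥ y + 2 * Q.cww * w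

/-- the base point `y(t)` of the line `x(t) = b + t s` -/
def slrY (b s : Fin 3 → ℝ) (t : ℝ) : Fin 2 → ℝ := fun j => b j.castSucc + t * s j.castSucc

/-- the hidden coordinate `w(t)` of the line `x(t) = b + t s` -/
def slrW (b s : Fin 3 → ℝ) (t : ℝ) : ℝ := b 2 + t * s 2

/-- **the set `Σ` of eligible slopes** (02 l.1491-1506) -/
def slrSig (Q : SlrQ) (Di : Matrix (Fin 2) (Fin 2) ℝ) (y0 y1 : Fin 2 → ℝ) (t0 q K a R : ℝ) : Set (Fin 3 → ℝ) :=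
  {s | (∀ i, |s i| ≤ R) ∧ ∃ b : Fin 3 → ℝ, (∀ i, |b i| ≤ R) ∧
    (∀ t ∈ Set.Icc t0 (t0 + q), (∀ i, |Di.mulVec (fun j => slrY b s t j - (y0 j + t * y1 j)) i| ≤ K) ∧
      |Q.ev t (slrY b s t) (slrW b s t)| ≤ K * a ∧ |Q.dw t (slrY b s t) (slrW b s t)| ≤ K) ∧
    ∃ t ∈ Set.Icc t0 (t0 + q), 1 / K ≤ |Q.dw t (slrY b s t) (slrW b s t)|}

/-- polynomial functions of degree `≤ 2` in `(t, y1, y2)` -/
def SlrIsQ (Δ : ℝ → ℝ → ℝ → ℝ) : Prop :=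
  ∃ d0 d1 d2 p1 p2 r1 r2 b11 b12 b22 : ℝ, ∀ t y1 y2 : ℝ,
    Δ t y1 y2 = d0 + d1 * t + d2 * t ^ 2 + (p1 + r1 * t) * y1 + (p2 + r2 * t) * y2 + b11 * y1 ^ 2 + 2 * b12 * y1 * y2 + b22 * y2 ^ 2

/-- the set of THEOREM NF: slopes `z = ((s1, s2), σ)` of the lines `(y(t), g(t)) = (b + t s, g0 + t σ)`, `t ∈ [0,1]` -/
def slrNFset (Δ : ℝ → ℝ → ℝ → ℝ) (K ε : ℝ) : Set ((ℝ × ℝ) × ℝ) :=
  {z | ∃ b1 b2 g0 : ℝ, (∀ t ∈ Set.Icc (0 : ℝ) 1, |b1 + t * z.1.1| ≤ K ∧ |b2 + t * z.1.2| ≤ K ∧ |g0 + t * z.2| ≤ K ∧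
      |(g0 + t * z.2) ^ 2 - Δ t (b1 + t * z.1.1) (b2 + t * z.1.2)| ≤ ε) ∧
    ∃ t ∈ Set.Icc (0 : ℝ) 1, 1 / K ≤ |g0 + t * z.2|}

/-- **THEOREM NF** as a proposition -/
def SlrNF (C : ℝ) (n : ℕ) : Prop :=
  ∀ Δ : ℝ → ℝ → ℝ → ℝ, SlrIsQ Δ → ∀ K ε : ℝ, 1 ≤ K → 0 < ε →
    volume (slrNFset Δ K ε) ≤ ENNReal.ofReal (C * K ^ n * ε * (1 + Real.log (1 + 1 / ε)))

theorem slr_eqns_cite : True := by
  have := @SlrQ.ev.eq_1
  have := @SlrQ.dw.eq_1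
  have := @slrY.eq_1
  have := @slrW.eq_1
  have := @slrSig.eq_1
  have := @SlrIsQ.eq_1
  have := @slrNFset.eq_1
  have := @SlrNF.eq_1
  trivial

end

end Claimed.Agent.R252
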