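-- KEEP
import Claimed.Agent.R252.Slope.NFContract
import Claimed.Agent.R252.Slope.RedDefs

/-!
# ROW 252, BOX 7 (T2, slope volume), file 5: `slv_nf` in the form `SlrNF` consumed by the reduction (`RedExit.lean`, helper6)      (helper17)
-/

set_option autoImplicit false

namespace Claimed.Agent.R252

open MeasureTheory
open scoped ENNReal

theorem slv_slrNF : SlrNF (2 * 10 ^ 6) 7 := by
  rintro Δ ⟨d0, d1, d2, p1, p2, r1, r2, b11, b12, b22, hΔ⟩ K ε hK hε
  let D : SlvD := ⟨d0, d1, p1, p2, 2 * d2, r1, r2, 2 * b11, 2 * b12, 2 * b22⟩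
  have hev : ∀ t y1 y2 : ℝ, Δ t y1 y2 = D.ev t y1 y2 := by
    intro t y1 y2
    rw [hΔ]
    simp only [SlvD.ev, D]
    ring
  have hset : slrNFset Δ K ε = (MeasurableEquiv.prodAssoc : (ℝ × ℝ) × ℝ ≃ᵐ ℝ × ℝ × ℝ) ⁻¹' slvSig D K ε := by
    ext z
    simp only [slrNFset, slvSig, Set.mem_preimage, Set.mem_setOf_eq, hev]
    rfl
  have hmp : MeasurePreserving (MeasurableEquiv.prodAssoc : (ℝ × ℝ) × ℝ ≃ᵐ ℝ × ℝ × ℝ) volume volume :=
    measurePreserving_prodAssoc volume volume volume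
  rw [hset, hmp.measure_preimage_equiv]
  exact slv_nf D K ε hK hε

end Claimed.Agent.R252
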