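import Claimed.Agent.R252.Slope.RedVol

/-!
# ROW 252, unit T2-SLOPE, reduction (helper6).   File 3: the algebra of the reduction 0(a)-(c): hidden coordinate `g = P_w`, `g² - Δ = 4 cww P`, normalisation of time and plank.
-/

set_option autoImplicit false

namespace Claimed.Agent.R252

open MeasureTheory
open scoped ENNReal

noncomputable section

/-- `Σ` without the bounds `R` -/
def slrSig0 (Q : SlrQ) (Di : Matrix (Fin 2) (Fin 2) ℝ) (y0 y1 : Fin 2 → ℝ) (t0 q K a : ℝ) : Set (Fin 3 → ℝ) :=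
  {s | ∃ b : Fin 3 → ℝ,
    (∀ t ∈ Set.Icc t0 (t0 + q), (∀ i, |Di.mulVec (fun j => slrY b s t j - (y0 j + t * y1 j)) i| ≤ K) ∧
      |Q.ev t (slrY b s t) (slrW b s t)| ≤ K * a ∧ |Q.dw t (slrY b s t) (slrW b s t)| ≤ K) ∧
    ∃ t ∈ Set.Icc t0 (t0 + q), 1 / K ≤ |Q.dw t (slrY b s t) (slrW b s t)|}

/-- `Δ = l² - 2 c f`, `c = 2 cww` -/
def slrDel (Q : SlrQ) (t : ℝ) (y : Fin 2 → ℝ) : ℝ := Q.dw t y 0 ^ 2 - 4 * Q.cww * Q.ev t y 0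

/-- `Δ` in the normalised coordinates -/
def slrDelN (Q : SlrQ) (Dm : Matrix (Fin 2) (Fin 2) ℝ) (y0 y1 : Fin 2 → ℝ) (t0 q : ℝ) (τ x1 x2 : ℝ) : ℝ :=
  slrDel Q (t0 + q * τ) (fun j => y0 j + (t0 + q * τ) * y1 j + Dm.mulVec ![x1, x2] j)

/-- the linear part of the slope map -/
def slrM (Q : SlrQ) (Di : Matrix (Fin 2) (Fin 2) ℝ) (q : ℝ) : Matrix (Fin 3) (Fin 3) ℝ :=
  !![q * Di 0 0, q * Di 0 1, 0; q * Di 1 0, q * Di 1 1, 0; q * Q.cyw 0, q * Q.cyw 1, q * (2 * Q.cww)]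

/-- the constant part of the slope map -/
def slrV (Q : SlrQ) (Di : Matrix (Fin 2) (Fin 2) ℝ) (y1 : Fin 2 → ℝ) (q : ℝ) : Fin 3 → ℝ :=
  ![-(q * (Di 0 0 * y1 0 + Di 0 1 * y1 1)), -(q * (Di 1 0 * y1 0 + Di 1 1 * y1 1)), q * Q.ctw]

theorem slr_eqns_cite2 : True := by
  have := @slrSig0.eq_1
  have := @slrDel.eq_1
  have := @slrDelN.eq_1
  have := @slrM.eq_1
  have := @slrV.eq_1
  trivial

theorem slr_del_id (Q : SlrQ) (t : ℝ) (y : Fin 2 → ℝ) (w : ℝ) : Q.dw t y w ^ 2 - slrDel Q t y = 4 * Q.cww * Q.ev t y w := by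
  simp only [slrDel, SlrQ.dw, SlrQ.ev]
  ring

theorem slr_delN_isQ (Q : SlrQ) (Dm : Matrix (Fin 2) (Fin 2) ℝ) (y0 y1 : Fin 2 → ℝ) (t0 q : ℝ) : SlrIsQ (slrDelN Q Dm y0 y1 t0 q) := by
  set F := slrDelN Q Dm y0 y1 t0 q with hF
  refine ⟨F 0 0 0, (F 1 0 0 - F (-1) 0 0) / 2, (F 1 0 0 + F (-1) 0 0) / 2 - F 0 0 0, (F 0 1 0 - F 0 (-1) 0) / 2, (F 0 0 1 - F 0 0 (-1)) / 2,
    F 1 1 0 - F 1 0 0 - F 0 1 0 + F 0 0 0, F 1 0 1 - F 1 0 0 - F 0 0 1 + F 0 0 0, (F 0 1 0 + F 0 (-1) 0) / 2 - F 0 0 0,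
    (F 0 1 1 - F 0 1 0 - F 0 0 1 + F 0 0 0) / 2, (F 0 0 1 + F 0 0 (-1)) / 2 - F 0 0 0, fun t x1 x2 => ?_⟩
  simp only [hF, slrDelN, slrDel, SlrQ.dw, SlrQ.ev, Matrix.mulVec, dotProduct, Fin.sum_univ_two, Matrix.cons_val_zero, Matrix.cons_val_one]
  ring

theorem slr_detM (Q : SlrQ) (Di : Matrix (Fin 2) (Fin 2) ℝ) (q : ℝ) : (slrM Q Di q).det = q ^ 3 * (2 * Q.cww) * Di.det := by
  rw [Matrix.det_fin_three, Matrix.det_fin_two]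
  simp [slrM]
  ring

theorem slr_map_0 (Q : SlrQ) (Di : Matrix (Fin 2) (Fin 2) ℝ) (y1 : Fin 2 → ℝ) (q : ℝ) (s : Fin 3 → ℝ) :
    ((slrM Q Di q).mulVec s + slrV Q Di y1 q) 0 = q * (Di 0 0 * (s 0 - y1 0) + Di 0 1 * (s 1 - y1 1)) := by
  simp [slrM, slrV, Matrix.mulVec, dotProduct, Fin.sum_univ_three]
  ring

theorem slr_map_1 (Q : SlrQ) (Di : Matrix (Fin 2) (Fin 2) ℝ) (y1 : Fin 2 → ℝ) (q : ℝ) (s : Fin 3 → ℝ) :
    ((slrM Q Di q).mulVec s + slrV Q Di y1 q) 1 = q * (Di 1 0 * (s 0 - y1 0) + Di 1 1 * (s 1 - y1 1)) := by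
  simp [slrM, slrV, Matrix.mulVec, dotProduct, Fin.sum_univ_three]
  ring

theorem slr_map_2 (Q : SlrQ) (Di : Matrix (Fin 2) (Fin 2) ℝ) (y1 : Fin 2 → ℝ) (q : ℝ) (s : Fin 3 → ℝ) :
    ((slrM Q Di q).mulVec s + slrV Q Di y1 q) 2 = q * (Q.ctw + Q.cyw 0 * s 0 + Q.cyw 1 * s 1 + 2 * Q.cww * s 2) := by
  simp [slrM, slrV, Matrix.mulVec, dotProduct, Fin.sum_univ_three]
  ring

/-- the slope map sends `Σ` into the set of THEOREM NF -/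
theorem slr_mem_nf (Q : SlrQ) (Dm Di : Matrix (Fin 2) (Fin 2) ℝ) (hD : Dm * Di = 1) (y0 y1 : Fin 2 → ℝ) (t0 q K a : ℝ) (hq : 0 < q)
    (s : Fin 3 → ℝ) (hs : s ∈ slrSig0 Q Di y0 y1 t0 q K a) :
    ((((slrM Q Di q).mulVec s + slrV Q Di y1 q) 0, ((slrM Q Di q).mulVec s + slrV Q Di y1 q) 1), ((slrM Q Di q).mulVec s + slrV Q Di y1 q) 2)
      ∈ slrNFset (slrDelN Q Dm y0 y1 t0 q) K (4 * |Q.cww| * (K * a)) := by
  obtain ⟨b, hb, t1, ht1, hlow⟩ := hs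
  rw [slr_map_0, slr_map_1, slr_map_2]
  -- the normalised position
  have key (τ : ℝ) (i : Fin 2) : Di.mulVec (fun j => slrY b s t0 j - (y0 j + t0 * y1 j)) i + τ * (q * (Di i 0 * (s 0 - y1 0) + Di i 1 * (s 1 - y1 1)))
      = Di.mulVec (fun j => slrY b s (t0 + q * τ) j - (y0 j + (t0 + q * τ) * y1 j)) i := by
    simp [Matrix.mulVec, dotProduct, Fin.sum_univ_two, slrY]
    ring
  have keyg (τ : ℝ) : Q.dw t0 (slrY b s t0) (slrW b s t0) + τ * (q * (Q.ctw + Q.cyw 0 * s 0 + Q.cyw 1 * s 1 + 2 * Q.cww * s 2))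
      = Q.dw (t0 + q * τ) (slrY b s (t0 + q * τ)) (slrW b s (t0 + q * τ)) := by
    simp [SlrQ.dw, dotProduct, Fin.sum_univ_two, slrY, slrW]
    ring
  have keyD (τ : ℝ) : slrDelN Q Dm y0 y1 t0 q τ (Di.mulVec (fun j => slrY b s (t0 + q * τ) j - (y0 j + (t0 + q * τ) * y1 j)) 0)
      (Di.mulVec (fun j => slrY b s (t0 + q * τ) j - (y0 j + (t0 + q * τ) * y1 j)) 1) = slrDel Q (t0 + q * τ) (slrY b s (t0 + q * τ)) := by
    unfold slrDelN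
    congr 1
    funext j
    have e1 : (![Di.mulVec (fun j => slrY b s (t0 + q * τ) j - (y0 j + (t0 + q * τ) * y1 j)) 0,
        Di.mulVec (fun j => slrY b s (t0 + q * τ) j - (y0 j + (t0 + q * τ) * y1 j)) 1] : Fin 2 → ℝ)
        = Di.mulVec (fun j => slrY b s (t0 + q * τ) j - (y0 j + (t0 + q * τ) * y1 j)) := by
      funext i
      fin_cases i <;> rfl
    rw [e1, Matrix.mulVec_mulVec, hD, Matrix.one_mulVec]
    ring
  refine ⟨Di.mulVec (fun j => slrY b s t0 j - (y0 j + t0 * y1 j)) 0, Di.mulVec (fun j => slrY b s t0 j - (y0 j + t0 * y1 j)) 1,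
    Q.dw t0 (slrY b s t0) (slrW b s t0), fun τ hτ => ?_, (t1 - t0) / q, ⟨div_nonneg (by linarith [ht1.1]) hq.le, ?_⟩, ?_⟩
  · have ht : t0 + q * τ ∈ Set.Icc t0 (t0 + q) := by
      constructor
      · nlinarith [hτ.1]
      · nlinarith [hτ.2]
    obtain ⟨h1, h2, h3⟩ := hb _ ht
    simp only []
    rw [key τ 0, key τ 1, keyg τ, keyD τ, slr_del_id]
    refine ⟨h1 0, h1 1, h3, ?_⟩
    rw [abs_mul, abs_mul]
    have : |(4 : ℝ)| = 4 := abs_of_pos (by norm_num)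
    rw [this]
    exact mul_le_mul_of_nonneg_left h2 (by positivity)
  · rw [div_le_one hq]
    linarith [ht1.2]
  · simp only []
    rw [keyg, mul_div_cancel₀ _ hq.ne']
    have : t0 + (t1 - t0) = t1 := by ring
    rw [this]
    exact hlow

end

end Claimed.Agent.R252
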