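import Claimed.Agent.R252.Slope.RedDefs

/-!
# ROW 252, unit T2-SLOPE, reduction (helper6).   File 2: the two volume lemmas (Mathlib only).
-/

set_option autoImplicit false

namespace Claimed.Agent.R252

open MeasureTheory
open scoped ENNReal

/-- `((a, b), c) ↦ ![a, b, c]` preserves the volume -/
theorem slr_mp_vec : MeasurePreserving (fun z : (ℝ × ℝ) × ℝ => (![z.1.1, z.1.2, z.2] : Fin 3 → ℝ)) volume volume := by
  have hm : Measurable (fun z : (ℝ × ℝ) × ℝ => (![z.1.1, z.1.2, z.2] : Fin 3 → ℝ)) := by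
    rw [measurable_pi_iff]
    intro i
    fin_cases i
    · exact measurable_fst.fst
    · exact measurable_fst.snd
    · exact measurable_snd
  refine ⟨hm, ?_⟩
  symm
  rw [volume_pi]
  refine Measure.pi_eq fun s hs => ?_
  rw [Measure.map_apply hm (MeasurableSet.univ_pi hs)]
  have : (fun z : (ℝ × ℝ) × ℝ => (![z.1.1, z.1.2, z.2] : Fin 3 → ℝ)) ⁻¹' Set.pi Set.univ s = (s 0 ×ˢ s 1) ×ˢ s 2 := by
    ext z
    simp only [Set.mem_preimage, Set.mem_pi, Set.mem_univ, forall_true_left, Set.mem_prod, Fin.forall_fin_succ]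
    simp [and_assoc]
  rw [this, Measure.volume_eq_prod, Measure.prod_prod, Measure.volume_eq_prod, Measure.prod_prod, Fin.prod_univ_three]

/-- transport of an arbitrary set from `(ℝ × ℝ) × ℝ` to `Fin 3 → ℝ` -/
theorem slr_fin3 (S : Set ((ℝ × ℝ) × ℝ)) : volume {x : Fin 3 → ℝ | ((x 0, x 1), x 2) ∈ S} ≤ volume S := by
  have hf : Measurable (fun x : Fin 3 → ℝ => ((x 0, x 1), x 2)) :=
    ((measurable_pi_apply 0).prodMk (measurable_pi_apply 1)).prodMk (measurable_pi_apply 2)
  have hT : MeasurableSet ((fun x : Fin 3 → ℝ => ((x 0, x 1), x 2)) ⁻¹' toMeasurable volume S) := hf (measurableSet_toMeasurable _ _)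
  calc volume {x : Fin 3 → ℝ | ((x 0, x 1), x 2) ∈ S}
      ≤ volume ((fun x : Fin 3 → ℝ => ((x 0, x 1), x 2)) ⁻¹' toMeasurable volume S) :=
        measure_mono fun x hx => subset_toMeasurable volume S hx
    _ = volume ((fun z : (ℝ × ℝ) × ℝ => (![z.1.1, z.1.2, z.2] : Fin 3 → ℝ)) ⁻¹'
          ((fun x : Fin 3 → ℝ => ((x 0, x 1), x 2)) ⁻¹' toMeasurable volume S)) := (slr_mp_vec.measure_preimage hT.nullMeasurableSet).symm
    _ = volume (toMeasurable volume S) := by
        congr 1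
    _ = volume S := measure_toMeasurable S

/-- volume of the preimage of an arbitrary set under an invertible affine map of `Fin 3 → ℝ` -/
theorem slr_aff_vol (M : Matrix (Fin 3) (Fin 3) ℝ) (hM : M.det ≠ 0) (v : Fin 3 → ℝ) (S : Set (Fin 3 → ℝ)) :
    volume {s : Fin 3 → ℝ | M.mulVec s + v ∈ S} = ENNReal.ofReal |M.det⁻¹| * volume S := by
  have h1 : {s : Fin 3 → ℝ | M.mulVec s + v ∈ S} = (Matrix.toLin' M) ⁻¹' ((fun x => x + v) ⁻¹' S) := by
    ext s
    simp [Matrix.toLin'_apply]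
  have hd : LinearMap.det (Matrix.toLin' M) ≠ 0 := by rwa [LinearMap.det_toLin']
  rw [h1, Measure.addHaar_preimage_linearMap volume hd, LinearMap.det_toLin', measure_preimage_add_right]

end Claimed.Agent.R252
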